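import Mathlib

/-!
# Averages over differences and log-convex moment sequences

The elementary part of the proof of `r₃(N) ≪ N exp (-c (log N / log log N)^(1/6))`.
-/

namespace Vale.Agent.P057.Sixth

open Finset

variable {G : Type*} [AddCommGroup G]

/-- The average of `φ (u - v)` over `u, v ∈ T`. -/
noncomputable def av (T : Finset G) (φ : G → ℝ) : ℝ :=
  (∑ q ∈ T ×ˢ T, φ (q.1 - q.2)) / (#T : ℝ) ^ 2

lemma av_eq (T : Finset G) (φ : G → ℝ) :
    av T φ = (∑ u ∈ T, ∑ v ∈ T, φ (u - v)) / (#T : ℝ) ^ 2 := by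
  rw [av, sum_product]

lemma av_nonneg {T : Finset G} {φ : G → ℝ} (h : ∀ y, 0 ≤ φ y) : 0 ≤ av T φ :=
  div_nonneg (sum_nonneg fun q _ => h _) (by positivity)

lemma av_mono {T : Finset G} {φ ψ : G → ℝ}
    (h : ∀ u ∈ T, ∀ v ∈ T, φ (u - v) ≤ ψ (u - v)) : av T φ ≤ av T ψ := by
  unfold av
  gcongr with q hq
  exact h _ (mem_product.1 hq).1 _ (mem_product.1 hq).2

lemma av_congr {T : Finset G} {φ ψ : G → ℝ}
    (h : ∀ u ∈ T, ∀ v ∈ T, φ (u - v) = ψ (u - v)) : av T φ = av T ψ :=
  le_antisymm (av_mono fun u hu v hv => (h u hu v hv).le)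
    (av_mono fun u hu v hv => (h u hu v hv).ge)

lemma av_add (T : Finset G) (φ ψ : G → ℝ) :
    av T (fun y => φ y + ψ y) = av T φ + av T ψ := by
  simp only [av, sum_add_distrib, add_div]

lemma av_sub (T : Finset G) (φ ψ : G → ℝ) :
    av T (fun y => φ y - ψ y) = av T φ - av T ψ := by
  simp only [av, sum_sub_distrib, sub_div]

lemma av_mul_left (T : Finset G) (c : ℝ) (φ : G → ℝ) :
    av T (fun y => c * φ y) = c * av T φ := by
  simp only [av, ← mul_sum, mul_div_assoc]

lemma av_const {T : Finset G} (hT : T.Nonempty) (c : ℝ) : av T (fun _ => c) = c := by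
  have h : (0 : ℝ) < #T := by exact_mod_cast hT.card_pos
  simp only [av, sum_const, card_product, nsmul_eq_mul, Nat.cast_mul]
  field_simp

lemma av_comp_neg (T : Finset G) (φ : G → ℝ) : av T (fun y => φ (-y)) = av T φ := by
  simp only [av_eq, neg_sub]
  rw [sum_comm]

lemma av_cauchy (T : Finset G) (φ ψ : G → ℝ) :
    av T (fun y => φ y * ψ y) ^ 2 ≤ av T (fun y => φ y ^ 2) * av T (fun y => ψ y ^ 2) := by
  simp only [av, div_pow, div_mul_div_comm, ← sq]
  gcongr
  exact sum_mul_sq_le_sq_mul_sq _ _ _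

lemma av_moment_convex (T : Finset G) {H : G → ℝ} (hH : ∀ y, 0 ≤ H y) (j : ℕ) :
    av T (fun y => H y ^ (j + 1)) ^ 2 ≤
      av T (fun y => H y ^ j) * av T (fun y => H y ^ (j + 2)) := by
  have h := av_cauchy T (fun y => Real.sqrt (H y ^ j)) (fun y => Real.sqrt (H y ^ j) * H y)
  simp only [mul_pow, ← mul_assoc, Real.mul_self_sqrt (pow_nonneg (hH _) _),
    Real.sq_sqrt (pow_nonneg (hH _) _)] at h
  simpa only [← pow_add, ← pow_succ] using h

/-- A log-convex sequence growing at most by the factor `D` at each step, and at least like `b ^ q`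
at the `q`-th term, has a place `p` where the ratio is stable over `R` steps. -/
lemma exists_stable_ratio {M : ℕ → ℝ} {D b s : ℝ} {q n R : ℕ} (hM0 : M 0 = 1)
    (hnn : ∀ j, 0 ≤ M j) (hconv : ∀ j, M (j + 1) ^ 2 ≤ M j * M (j + 2))
    (hD : ∀ j, M (j + 1) ≤ D * M j) (hb : 1 ≤ b) (hs : 1 ≤ s) (hq : 1 ≤ q) (hMq : b ^ q ≤ M q)
    (hn : D < b * s ^ n) :
    ∃ rp ρ : ℝ, ∃ k p : ℕ, p = k + R ∧ p ≤ q + n * R ∧ b ≤ ρ ∧ ρ * M k ≤ M (k + 1) ∧
      ρ ^ R * M k ≤ M p ∧ 1 ≤ M p ∧ 0 ≤ rp ∧ rp ≤ s * ρ ∧ M (p + 1) ≤ rp * M p := by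
  have hMqpos : 0 < M q := lt_of_lt_of_le (by positivity) hMq
  have zero_up : ∀ j i, M j = 0 → M (j + i) = 0 := by
    intro j i hj
    induction i with
    | zero => simpa using hj
    | succ i ih =>
      refine le_antisymm ?_ (hnn _)
      have := hD (j + i)
      rw [ih, mul_zero] at this
      simpa [add_assoc] using this
  have hposle : ∀ j ≤ q, 0 < M j := by
    intro j hj
    rcases (hnn j).lt_or_eq with h | h
    · exact h
    · have := zero_up j (q - j) h.symm
      rw [Nat.add_sub_cancel' hj] at this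
      exact absurd this hMqpos.ne'
  have hpos : ∀ j, 0 < M j := by
    intro j
    induction j using Nat.strong_induction_on with
    | _ j ih =>
      rcases le_or_gt j q with h | h
      · exact hposle j h
      · obtain ⟨i, rfl⟩ : ∃ i, j = i + 2 := ⟨j - 2, by omega⟩
        have h1 := ih i (by omega)
        have h2 := ih (i + 1) (by omega)
        rcases (hnn (i + 2)).lt_or_eq with h3 | h3
        · exact h3
        · have := hconv i
          rw [← h3, mul_zero] at this
          exact absurd this (not_le.2 (by positivity))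
  set r : ℕ → ℝ := fun j => M (j + 1) / M j with hr
  have hrM : ∀ j, M (j + 1) = r j * M j := fun j => by
    simp only [hr]; rw [div_mul_cancel₀ _ (hpos j).ne']
  have hrpos : ∀ j, 0 < r j := fun j => div_pos (hpos _) (hpos _)
  have hmono : Monotone r := monotone_nat_of_le_succ fun j => by
    simp only [hr]
    rw [div_le_div_iff₀ (hpos _) (hpos _)]
    have := hconv j
    nlinarith [hconv j]
  have hrD : ∀ j, r j ≤ D := fun j => by
    simp only [hr]; rw [div_le_iff₀ (hpos j)]; exact hD j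
  have hup : ∀ j ≤ q, M j ≤ r q ^ j := by
    intro j hj
    induction j with
    | zero => simp [hM0]
    | succ j ih =>
      rw [hrM, pow_succ']
      exact mul_le_mul (hmono (by omega)) (ih (by omega)) (hnn _) (hrpos q).le
  have hrb : b ≤ r q := by
    have h := hMq.trans (hup q le_rfl)
    exact le_of_pow_le_pow_left₀ (by omega) (hrpos q).le h
  have hlow : ∀ k i, r k ^ i * M k ≤ M (k + i) := by
    intro k i
    induction i with
    | zero => simp
    | succ i ih =>
      rw [← add_assoc, hrM (k + i), pow_succ', mul_assoc]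
      gcongr
      · exact mul_nonneg (pow_nonneg (hrpos k).le _) (hnn _)
      · exact (hrpos _).le
      · exact hmono (by omega)
  obtain ⟨i, hi, hi'⟩ : ∃ i < n, r (q + i * R + R) ≤ s * r (q + i * R) := by
    by_contra hcon
    push Not at hcon
    have hgrow : ∀ i ≤ n, b * s ^ i ≤ r (q + i * R) := by
      intro i hi
      induction i with
      | zero => simpa using hrb
      | succ i ih =>
        have h1 := hcon i (by omega)
        have h2 := ih (by omega)
        rw [Nat.succ_mul, ← add_assoc]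
        calc b * s ^ (i + 1) = s * (b * s ^ i) := by ring
          _ ≤ s * r (q + i * R) := by gcongr
          _ ≤ _ := h1.le
    exact absurd ((hgrow n le_rfl).trans (hrD _)) (not_le.2 hn)
  refine ⟨r (q + i * R + R), r (q + i * R), q + i * R, q + i * R + R, rfl, ?_, ?_, ?_, ?_, ?_, ?_,
    hi', ?_⟩
  · have : (i + 1) * R ≤ n * R := Nat.mul_le_mul_right _ hi
    rw [Nat.succ_mul] at this
    omega
  · exact hrb.trans (hmono (by omega))
  · exact (hrM _).ge
  · exact hlow _ _
  · have hq1 : ∀ i, 1 ≤ M (q + i) := by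
      intro i
      have h0 : (1 : ℝ) ≤ r q := hb.trans hrb
      have h1 : (1 : ℝ) ≤ M q := le_trans (one_le_pow₀ hb) hMq
      calc (1 : ℝ) ≤ r q ^ i * M q := one_le_mul_of_one_le_of_one_le (one_le_pow₀ h0) h1
        _ ≤ _ := hlow _ _
    simpa [add_assoc] using hq1 (i * R + R)
  · exact (hrpos _).le
  · exact (hrM _).le

end Vale.Agent.P057.Sixth
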