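import Vale.Agent.P057.Sixth.Fourier

/-!
# Bohr sets in `ZMod N`: size, doubling and stable radii
-/

namespace Vale.Agent.P057.Sixth

open Finset

set_option linter.unusedSectionVars false

variable {N : ℕ} [NeZero N]

/-- Distance of `x` to zero, in units of `N`. -/
noncomputable def dist0 (x : ZMod N) : ℝ := |(x.valMinAbs : ℝ)| / N

/-- The Bohr set with frequency set `Γ` and radius `ρ`. -/
noncomputable def bohr (Γ : Finset (ZMod N)) (ρ : ℝ) : Finset (ZMod N) :=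
  open Classical in univ.filter fun x => ∀ r ∈ Γ, dist0 (r * x) ≤ ρ

lemma mem_bohr {Γ : Finset (ZMod N)} {ρ : ℝ} {x : ZMod N} :
    x ∈ bohr Γ ρ ↔ ∀ r ∈ Γ, dist0 (r * x) ≤ ρ := by
  simp [bohr]

lemma dist0_nonneg (x : ZMod N) : 0 ≤ dist0 x := by unfold dist0; positivity

lemma dist0_zero : dist0 (0 : ZMod N) = 0 := by simp [dist0]

lemma dist0_neg (x : ZMod N) : dist0 (-x) = dist0 x := by
  simp only [dist0, ← Int.cast_abs, Int.abs_eq_natAbs, ZMod.natAbs_valMinAbs_neg]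

lemma dist0_add_le (x y : ZMod N) : dist0 (x + y) ≤ dist0 x + dist0 y := by
  rw [dist0, dist0, dist0, ← add_div]
  gcongr
  have h : (x + y).valMinAbs.natAbs ≤ x.valMinAbs.natAbs + y.valMinAbs.natAbs :=
    (ZMod.natAbs_valMinAbs_add_le x y).trans (Int.natAbs_add_le _ _)
  simp only [← Int.cast_abs, Int.abs_eq_natAbs, Int.cast_natCast]
  exact_mod_cast h

lemma dist0_intCast_le (k : ℤ) : dist0 (k : ZMod N) ≤ |(k : ℝ)| / N := by
  rw [dist0]
  refine div_le_div_of_nonneg_right ?_ (Nat.cast_nonneg N)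
  have h : (k : ZMod N).valMinAbs.natAbs ≤ k.natAbs := by
    refine ZMod.natAbs_min_of_le_div_two N _ _ ?_ (ZMod.natAbs_valMinAbs_le _)
    rw [ZMod.coe_valMinAbs]
  rw [← Int.cast_abs, ← Int.cast_abs, Int.abs_eq_natAbs, Int.abs_eq_natAbs, Int.cast_natCast,
    Int.cast_natCast]
  exact_mod_cast h

lemma zero_mem_bohr {Γ : Finset (ZMod N)} {ρ : ℝ} (hρ : 0 ≤ ρ) : 0 ∈ bohr Γ ρ :=
  mem_bohr.2 fun r _ => by rw [mul_zero, dist0_zero]; exact hρ

lemma neg_mem_bohr {Γ : Finset (ZMod N)} {ρ : ℝ} {x : ZMod N} (h : x ∈ bohr Γ ρ) :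
    -x ∈ bohr Γ ρ :=
  mem_bohr.2 fun r hr => by rw [mul_neg, dist0_neg]; exact mem_bohr.1 h r hr

lemma add_mem_bohr {Γ : Finset (ZMod N)} {ρ σ τ : ℝ} {x y : ZMod N} (hx : x ∈ bohr Γ ρ)
    (hy : y ∈ bohr Γ σ) (h : ρ + σ ≤ τ) : x + y ∈ bohr Γ τ :=
  mem_bohr.2 fun r hr => by
    rw [mul_add]
    exact ((dist0_add_le _ _).trans (add_le_add (mem_bohr.1 hx r hr) (mem_bohr.1 hy r hr))).trans h

lemma sub_mem_bohr {Γ : Finset (ZMod N)} {ρ σ τ : ℝ} {x y : ZMod N} (hx : x ∈ bohr Γ ρ)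
    (hy : y ∈ bohr Γ σ) (h : ρ + σ ≤ τ) : x - y ∈ bohr Γ τ := by
  rw [sub_eq_add_neg]; exact add_mem_bohr hx (neg_mem_bohr hy) h

lemma bohr_mono {Γ Γ' : Finset (ZMod N)} {ρ ρ' : ℝ} (hΓ : Γ' ⊆ Γ) (hρ : ρ ≤ ρ') :
    bohr Γ ρ ⊆ bohr Γ' ρ' :=
  fun _ hx => mem_bohr.2 fun r hr => (mem_bohr.1 hx r (hΓ hr)).trans hρ

lemma bohr_empty (ρ : ℝ) : bohr (∅ : Finset (ZMod N)) ρ = univ := by
  ext x; simp [mem_bohr]

lemma card_bohr_pos {Γ : Finset (ZMod N)} {ρ : ℝ} (hρ : 0 ≤ ρ) : 0 < #(bohr Γ ρ) :=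
  card_pos.2 ⟨0, zero_mem_bohr hρ⟩

lemma card_bohr_lower (Γ : Finset (ZMod N)) {ρ : ℝ} (hρ : 0 < ρ) (hρ1 : ρ ≤ 1) :
    (N : ℝ) * (ρ / 2) ^ #Γ ≤ #(bohr Γ ρ) := by
  classical
  have hN : (0 : ℝ) < N := by exact_mod_cast NeZero.pos N
  set K := ⌈1 / ρ⌉₊ with hK
  have hKpos : 0 < K := Nat.ceil_pos.2 (by positivity)
  have hKR : (0 : ℝ) < K := by exact_mod_cast hKpos
  have hK1 : 1 / ρ ≤ K := Nat.le_ceil _
  have hK2 : (K : ℝ) ≤ 2 / ρ := by
    refine (Nat.ceil_lt_add_one (by positivity)).le.trans ?_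
    rw [show (2 : ℝ) / ρ = 1 / ρ + 1 / ρ by ring]
    gcongr
    rw [le_div_iff₀ hρ]; linarith
  set cell : ZMod N → (∀ r ∈ Γ, Fin K) := fun x r _ =>
    ⟨(r * x).val * K / N, by
      rw [Nat.div_lt_iff_lt_mul (NeZero.pos N), mul_comm K N]
      exact Nat.mul_lt_mul_of_pos_right (ZMod.val_lt _) hKpos⟩ with hcell
  have hmaps : ∀ x ∈ (univ : Finset (ZMod N)), cell x ∈ Γ.pi fun _ => univ :=
    fun x _ => mem_pi.2 fun r _ => mem_univ _
  obtain ⟨c, -, hc⟩ := exists_le_card_fiber_of_nsmul_le_card_of_maps_to hmaps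
    ⟨cell 0, hmaps 0 (mem_univ _)⟩ (b := (N : ℝ) / (K : ℝ) ^ #Γ) (by
      rw [card_pi, prod_const, card_univ, Fintype.card_fin, nsmul_eq_mul, card_univ, ZMod.card,
        Nat.cast_pow, mul_div_cancel₀ _ (by positivity)])
  set F := univ.filter fun x => cell x = c with hF
  have hne : F.Nonempty := by
    rw [← card_pos]
    have : (0 : ℝ) < #F := lt_of_lt_of_le (by positivity) hc
    exact_mod_cast this
  obtain ⟨x₀, hx₀⟩ := hne
  have hsub : F.image (fun x => x - x₀) ⊆ bohr Γ ρ := by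
    intro y hy
    obtain ⟨x, hx, rfl⟩ := mem_image.1 hy
    refine mem_bohr.2 fun r hr => ?_
    have e := congrArg Fin.val (congrFun (congrFun ((mem_filter.1 hx).2.trans
      (mem_filter.1 hx₀).2.symm) r) hr)
    simp only [hcell] at e
    set a := (r * x).val with ha
    set b := (r * x₀).val with hb
    have h1 : ((a : ℤ) - b : ℤ) * K < N ∧ -(N : ℤ) < ((a : ℤ) - b : ℤ) * K := by
      have ea := Nat.div_add_mod (a * K) N
      have eb := Nat.div_add_mod (b * K) N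
      rw [e] at ea
      have la := Nat.mod_lt (a * K) (NeZero.pos N)
      have lb := Nat.mod_lt (b * K) (NeZero.pos N)
      have u1 : a * K < b * K + N := by omega
      have u2 : b * K < a * K + N := by omega
      zify at u1 u2
      rw [sub_mul]
      constructor <;> linarith
    have h2 : |(((a : ℤ) - b : ℤ) : ℝ)| * K ≤ N := by
      rw [← abs_of_pos hKR, ← abs_mul]
      exact abs_le.2 ⟨by exact_mod_cast h1.2.le, by exact_mod_cast h1.1.le⟩
    have h3 : r * (x - x₀) = (((a : ℤ) - b : ℤ) : ZMod N) := by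
      push_cast
      rw [ha, hb, ZMod.natCast_zmod_val, ZMod.natCast_zmod_val, mul_sub]
    rw [h3]
    refine (dist0_intCast_le _).trans ?_
    rw [div_le_iff₀ hN]
    rw [div_le_iff₀ hρ] at hK1
    nlinarith [abs_nonneg (((a : ℤ) - b : ℤ) : ℝ)]
  have hcard : #F ≤ #(bohr Γ ρ) := by
    rw [← card_image_of_injective F (sub_left_injective (b := x₀))]
    exact card_le_card hsub
  refine le_trans ?_ (hc.trans (by exact_mod_cast hcard))
  rw [div_eq_mul_inv (N : ℝ), ← inv_pow]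
  gcongr
  rw [inv_eq_one_div, le_div_iff₀ hKR]
  rw [le_div_iff₀ hρ] at hK2
  linarith

lemma card_bohr_double (Γ : Finset (ZMod N)) {ρ : ℝ} (hρ : 0 < ρ) :
    (#(bohr Γ (2 * ρ)) : ℝ) ≤ 5 ^ #Γ * #(bohr Γ ρ) := by
  classical
  have hN : (0 : ℝ) < N := by exact_mod_cast NeZero.pos N
  set cell : ZMod N → (∀ r ∈ Γ, ℤ) := fun x r _ => ⌊((r * x).valMinAbs : ℝ) / N / ρ⌋ with hcell
  have hmaps : ∀ x ∈ bohr Γ (2 * ρ), cell x ∈ Γ.pi fun _ => Icc (-2 : ℤ) 2 := by
    intro x hx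
    refine mem_pi.2 fun r hr => mem_Icc.2 ?_
    have h := mem_bohr.1 hx r hr
    rw [dist0, ← abs_of_pos hN, ← abs_div, abs_le] at h
    simp only [hcell]
    refine ⟨?_, ?_⟩
    · rw [Int.le_floor, le_div_iff₀ hρ]; push_cast; linarith
    · rw [← Int.lt_add_one_iff, Int.floor_lt, div_lt_iff₀ hρ]; push_cast; linarith
  have hfib : ∀ c ∈ Γ.pi (fun _ => Icc (-2 : ℤ) 2),
      #((bohr Γ (2 * ρ)).filter fun x => cell x = c) ≤ #(bohr Γ ρ) := by
    intro c _
    rcases ((bohr Γ (2 * ρ)).filter fun x => cell x = c).eq_empty_or_nonempty with he | ⟨x₀, hx₀⟩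
    · simp [he]
    refine card_le_card_of_injOn (fun x => x - x₀) (fun x hx => ?_) sub_left_injective.injOn
    refine mem_bohr.2 fun r hr => ?_
    have e : cell x r hr = cell x₀ r hr := by rw [(mem_filter.1 hx).2, (mem_filter.1 hx₀).2]
    simp only [hcell] at e
    have h3 : r * (x - x₀) = (((r * x).valMinAbs - (r * x₀).valMinAbs : ℤ) : ZMod N) := by
      push_cast [ZMod.coe_valMinAbs]
      rw [mul_sub]
    rw [h3]
    refine (dist0_intCast_le _).trans ?_
    have h4 := Int.abs_sub_lt_one_of_floor_eq_floor e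
    rw [← sub_div, ← sub_div, abs_div, abs_div, abs_of_pos hρ, abs_of_pos hN, div_lt_one hρ] at h4
    push_cast
    exact h4.le
  have := card_le_mul_card_image_of_maps_to hmaps _ hfib
  rw [card_pi, prod_const, Int.card_Icc] at this
  calc (#(bohr Γ (2 * ρ)) : ℝ) ≤ ((#(bohr Γ ρ) * 5 ^ #Γ : ℕ) : ℝ) := by
        exact_mod_cast this.trans (by simp)
    _ = _ := by push_cast; ring

/-- The dilation factor allowed by stability at rank `d`. -/
noncomputable def stab (d : ℕ) : ℝ := 1 / (16000 * (d + 1))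

lemma stab_pos (d : ℕ) : 0 < stab d := by unfold stab; positivity

lemma stab_le (d : ℕ) : stab d ≤ 1 / 16000 := by
  unfold stab
  gcongr
  have : (0 : ℝ) ≤ d := d.cast_nonneg
  linarith

lemma stab_anti {d d' : ℕ} (h : d ≤ d') : stab d' ≤ stab d := by
  unfold stab; gcongr

/-- A stable (regular enough) radius. -/
def Stable (Γ : Finset (ZMod N)) (ρ : ℝ) : Prop :=
  0 < ρ ∧ (#(bohr Γ (ρ * (1 + stab #Γ))) : ℝ) ≤ 1.001 * #(bohr Γ ρ)

lemma exists_stable (Γ : Finset (ZMod N)) {r : ℝ} (hr : 0 < r) :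
    ∃ ρ, r / 2 ≤ ρ ∧ ρ ≤ r ∧ Stable Γ ρ := by
  set d := #Γ with hd
  set m : ℕ := 8000 * (d + 1) with hm
  clear_value m
  set rad : ℕ → ℝ := fun i => r / 2 * (1 + i / m) with hrad
  set F : ℕ → ℝ := fun i => #(bohr Γ (rad i)) with hF
  have hmR : (0 : ℝ) < m := Nat.cast_pos.2 (by rw [hm]; omega)
  have hradpos : ∀ i, 0 < rad i := fun i => by simp only [hrad]; positivity
  by_contra hcon
  push Not at hcon
  have hgrow : ∀ i ≤ m, (1.001 : ℝ) ^ i * F 0 ≤ F i := by
    intro i hi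
    induction i with
    | zero => simp
    | succ i ih =>
      have hle : rad i ≤ r := by
        have : (i : ℝ) / m ≤ 1 := by
          rw [div_le_one hmR]; exact_mod_cast (by omega : i ≤ m)
        simp only [hrad]; nlinarith
      have hge : r / 2 ≤ rad i := by
        have : (0 : ℝ) ≤ (i : ℝ) / m := by positivity
        simp only [hrad]; nlinarith
      have hns := hcon _ hge hle
      rw [Stable, not_and] at hns
      have h1 := lt_of_not_ge (hns (hradpos i))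
      have h2 : (#(bohr Γ (rad i * (1 + stab #Γ))) : ℝ) ≤ F (i + 1) := by
        simp only [hF, Nat.cast_le]
        refine card_le_card (bohr_mono subset_rfl ?_)
        have e : stab d = 1 / (2 * m) := by rw [stab, hm]; push_cast; ring
        have hexp : rad i * (1 + stab d) = rad i + rad i * stab d := by ring
        rw [← hd, hexp, e]
        simp only [hrad]
        push_cast
        have : r / 2 * (1 + (i : ℝ) / m) * (1 / (2 * m)) ≤ r * (1 / (2 * m)) := by
          gcongr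
        rw [add_div]
        have e2 : r / 2 * (1 + ((i : ℝ) / m + 1 / m)) =
            r / 2 * (1 + (i : ℝ) / m) + r * (1 / (2 * m)) := by ring
        rw [e2]
        linarith
      calc (1.001 : ℝ) ^ (i + 1) * F 0 = 1.001 * (1.001 ^ i * F 0) := by ring
        _ ≤ 1.001 * F i := by gcongr; exact ih (by omega)
        _ ≤ _ := h1.le.trans h2
  have h0 : 0 < F 0 := by
    simp only [hF, Nat.cast_pos]; exact card_bohr_pos (hradpos 0).le
  have hmm : F m ≤ 5 ^ d * F 0 := by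
    have e : rad m = 2 * rad 0 := by
      simp only [hrad, div_self hmR.ne', Nat.cast_zero, zero_div, add_zero]; ring
    simp only [hF, e]
    exact card_bohr_double Γ (hradpos 0)
  have h5 : (5 : ℝ) ^ d < 1.001 ^ m := by
    rw [hm, pow_mul]
    have h8 : (5 : ℝ) ≤ (1.001 : ℝ) ^ 8000 := by
      rw [show (1.001 : ℝ) = 1 + 0.001 by norm_num]
      exact le_trans (by norm_num) (one_add_mul_le_pow (show (-2 : ℝ) ≤ 0.001 by norm_num) 8000)
    calc (5 : ℝ) ^ d < 5 ^ (d + 1) := pow_lt_pow_right₀ (by norm_num) (by omega)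
      _ ≤ _ := pow_le_pow_left₀ (by norm_num) h8 _
  have := (hgrow m le_rfl).trans hmm
  exact absurd (le_of_mul_le_mul_right this h0) (not_le.2 h5)

/-- Multiplying by `2` turns a Bohr set into the Bohr set with halved frequencies. -/
lemma bohr_image_two {h : ZMod N} (h2 : h * 2 = 1) (Γ : Finset (ZMod N)) (ρ : ℝ) :
    (bohr Γ ρ).image (fun x => 2 * x) = bohr (Γ.image fun r => r * h) ρ := by
  ext y
  simp only [mem_image, mem_bohr, forall_exists_index, and_imp, forall_apply_eq_imp_iff₂]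
  constructor
  · rintro ⟨x, hx, rfl⟩ r hr
    rw [mul_assoc, ← mul_assoc h, h2, one_mul]
    exact hx r hr
  · intro hy
    refine ⟨h * y, fun r hr => ?_, ?_⟩
    · rw [← mul_assoc]; exact hy r hr
    · rw [← mul_assoc, mul_comm 2 h, h2, one_mul]

lemma bohr_half_subset {h : ZMod N} (h2 : h * 2 = 1) {Γ : Finset (ZMod N)} {ρ : ℝ} {y : ZMod N}
    (hy : y ∈ bohr (Γ.image fun r => r * h) ρ) : y ∈ bohr Γ (2 * ρ) := by
  refine mem_bohr.2 fun r hr => ?_
  have e : r * y = r * h * y + r * h * y := by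
    calc r * y = r * y * (h * 2) := by rw [h2, mul_one]
      _ = _ := by ring
  rw [e, two_mul]
  have := mem_bohr.1 hy _ (mem_image_of_mem _ hr)
  exact (dist0_add_le _ _).trans (by linarith)

lemma norm_eN_sub_one_le (x : ZMod N) : ‖eN x - 1‖ ≤ 2 * Real.pi * dist0 x := by
  have h : eN x = Complex.exp (Complex.I * ((2 * Real.pi * (x.valMinAbs : ℝ) / N : ℝ) : ℂ)) := by
    conv_lhs => rw [← ZMod.coe_valMinAbs x]
    simp only [eN]
    rw [ZMod.stdAddChar_coe]
    push_cast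
    ring_nf
  rw [h]
  refine Real.norm_exp_I_mul_ofReal_sub_one_le.trans_eq ?_
  rw [Real.norm_eq_abs, dist0, abs_div, abs_mul, Nat.abs_cast, abs_of_pos (by positivity : (0:ℝ) < 2 * Real.pi)]
  ring

end Vale.Agent.P057.Sixth
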