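import Vale.Agent.P057.Sixth.Bohr

/-!
# The large spectrum of a dense subset of a Bohr set (Chang's lemma by Riesz products)
-/

namespace Vale.Agent.P057.Sixth

open Finset ComplexConjugate

set_option linter.unusedSectionVars false

variable {N : ℕ} [NeZero N]

/-- The distance of a character value to `1`. -/
noncomputable def de (x : ZMod N) : ℝ := ‖eN x - 1‖

lemma de_nonneg (x : ZMod N) : 0 ≤ de x := norm_nonneg _

lemma de_neg (x : ZMod N) : de (-x) = de x := by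
  rw [de, de, eN_neg, ← Complex.norm_conj, map_sub, Complex.conj_conj, map_one]

lemma de_add_le (x y : ZMod N) : de (x + y) ≤ de x + de y := by
  rw [de, de, de, eN_add, show eN x * eN y - 1 = eN x * (eN y - 1) + (eN x - 1) by ring]
  refine (norm_add_le _ _).trans ?_
  rw [norm_mul, norm_eN, one_mul, add_comm]

lemma de_sum_le (s : Finset (ZMod N)) (y : ZMod N) :
    de ((∑ x ∈ s, x) * y) ≤ ∑ x ∈ s, de (x * y) := by
  induction s using Finset.induction with
  | empty => simp [de, eN]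
  | insert a s ha ih =>
    rw [sum_insert ha, sum_insert ha, add_mul]
    exact (de_add_le _ _).trans (by linarith)

/-- `Λ` is dissociated modulo the large spectrum of `T`. -/
def Diss (T Λ : Finset (ZMod N)) : Prop :=
  ∀ s ⊆ Λ, ∀ t ⊆ Λ, Disjoint s t → (s ∪ t).Nonempty → ‖muHat T (∑ x ∈ s, x - ∑ x ∈ t, x)‖ < 1 / 2

lemma Diss.mono {T Λ Λ' : Finset (ZMod N)} (h : Diss T Λ) (hs : Λ' ⊆ Λ) : Diss T Λ' :=
  fun s hs' t ht' => h s (hs'.trans hs) t (ht'.trans hs)

/-- The Riesz product bound. -/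
lemma riesz_bound {X T' T W Λ : Finset (ZMod N)} {n0 : ℕ} (hXne : X.Nonempty) (hX : X ⊆ T')
    (hT : T.Nonempty) (hW : ∀ x ∈ T', ∀ f : Fin n0 → ZMod N, (∀ i, f i ∈ T) → x - ∑ i, f i ∈ W)
    (hWcard : (#W : ℝ) ≤ 2 * #T') (hdiss : Diss T Λ) (hspec : ∀ l ∈ Λ, 1 / 2 ≤ ‖muHat X l‖)
    (hn : #Λ ≤ n0) : Real.exp ((#Λ : ℝ) / 8) ≤ 4 * #T' / #X := by
  classical
  set n := #Λ with hndef
  have hXpos : (0 : ℝ) < #X := by exact_mod_cast hXne.card_pos
  have hTpos : (0 : ℝ) < #T := by exact_mod_cast hT.card_pos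
  have hphase : ∀ l : ZMod N, ∃ c : ℂ, ‖c‖ = 1 ∧
      ∑ x ∈ X, (c * eN (l * x)).re = ‖∑ x ∈ X, eN (l * x)‖ := by
    intro l
    set s := ∑ x ∈ X, eN (l * x) with hs
    refine ⟨Complex.exp (-(s.arg : ℂ) * Complex.I), ?_, ?_⟩
    · rw [Complex.norm_exp]; simp
    · rw [← Complex.re_sum, ← mul_sum, ← hs]
      conv_lhs => arg 1; arg 2; rw [← Complex.norm_mul_exp_arg_mul_I s]
      rw [mul_left_comm, ← Complex.exp_add]
      simp
  choose c hc1 hc2 using hphase
  set cs : ZMod N → ZMod N → ℝ := fun l z => (c l * eN (l * z)).re with hcs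
  have hcs1 : ∀ l z, |cs l z| ≤ 1 := fun l z => by
    refine (Complex.abs_re_le_norm _).trans ?_
    rw [norm_mul, hc1, norm_eN, one_mul]
  set C := Real.cosh (1 / 2) with hC
  set S := Real.sinh (1 / 2) with hS
  have hC0 : 0 ≤ C := (Real.cosh_pos _).le
  have hS0 : 0 ≤ S := Real.sinh_nonneg_iff.2 (by norm_num)
  set R : ZMod N → ℝ := fun z => ∏ l ∈ Λ, (C + cs l z * S) with hR
  have hR0 : ∀ z, 0 ≤ R z := fun z => prod_nonneg fun l _ => by
    have := Real.exp_mul_le_cosh_add_mul_sinh (hcs1 l z) (1 / 2)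
    have := Real.exp_pos (cs l z * (1 / 2))
    linarith
  -- lower bound
  have hlow : (#X : ℝ) * Real.exp ((n : ℝ) / 4) ≤ ∑ x ∈ X, R x := by
    set Sx : ZMod N → ℝ := fun x => ∑ l ∈ Λ, cs l x * (1 / 2) with hSx
    have h1 : ∀ x, Real.exp (Sx x) ≤ R x := fun x => by
      simp only [hSx, Real.exp_sum, hR]
      exact prod_le_prod (fun l _ => (Real.exp_pos _).le) fun l _ =>
        Real.exp_mul_le_cosh_add_mul_sinh (hcs1 l x) _
    have h2 : (n : ℝ) / 4 * #X ≤ ∑ x ∈ X, Sx x := by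
      simp only [hSx]
      rw [sum_comm]
      calc (n : ℝ) / 4 * #X = ∑ _l ∈ Λ, (#X : ℝ) / 4 := by rw [sum_const, nsmul_eq_mul, hndef]; ring
        _ ≤ _ := sum_le_sum fun l hl => by
          rw [← sum_mul]
          simp only [hcs, hc2]
          have h := hspec l hl
          rw [muHat, norm_div, Complex.norm_natCast, le_div_iff₀ hXpos] at h
          linarith
    have h3 : ∀ x, Real.exp ((n : ℝ) / 4) * (1 + (Sx x - (n : ℝ) / 4)) ≤ Real.exp (Sx x) := fun x => by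
      calc _ ≤ Real.exp ((n : ℝ) / 4) * Real.exp (Sx x - (n : ℝ) / 4) := by
            gcongr; linarith [Real.add_one_le_exp (Sx x - (n : ℝ) / 4)]
        _ = _ := by rw [← Real.exp_add]; ring_nf
    calc (#X : ℝ) * Real.exp ((n : ℝ) / 4) ≤
          ∑ x ∈ X, Real.exp ((n : ℝ) / 4) * (1 + (Sx x - (n : ℝ) / 4)) := by
          rw [← mul_sum, sum_add_distrib, sum_sub_distrib, sum_const, sum_const, nsmul_eq_mul,
            nsmul_eq_mul]
          nlinarith [Real.exp_pos ((n : ℝ) / 4)]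
      _ ≤ _ := sum_le_sum fun x _ => (h3 x).trans (h1 x)
  -- majorisation by the smoothed weight
  set Φ := Fintype.piFinset fun _ : Fin n0 => T with hΦ
  have hΦcard : (#Φ : ℝ) = (#T : ℝ) ^ n0 := by simp [hΦ]
  have hmaj : (#T : ℝ) ^ n0 * ∑ x ∈ X, R x ≤ ∑ f ∈ Φ, ∑ w ∈ W, R (w + ∑ i, f i) := by
    rw [← hΦcard, ← nsmul_eq_mul, ← sum_const]
    refine sum_le_sum fun f hf => ?_
    have e : ∑ x ∈ X, R x = ∑ w ∈ X.image (fun x => x - ∑ i, f i), R (w + ∑ i, f i) := by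
      rw [sum_image fun a _ b _ h => sub_left_injective h]
      simp
    rw [e]
    refine sum_le_sum_of_subset_of_nonneg (fun w hw => ?_) fun w _ _ => hR0 _
    obtain ⟨x, hx, rfl⟩ := mem_image.1 hw
    exact hW x (hX hx) f (Fintype.mem_piFinset.1 hf)
  -- expansion
  set κ : Finset (ZMod N) → Finset (ZMod N) → ℂ := fun s t =>
    ((C : ℂ) ^ #(Λ \ s)) * (((S / 2 : ℝ) : ℂ) ^ #s) *
      ((∏ l ∈ t, c l) * ∏ l ∈ s \ t, conj (c l)) with hκ
  have hexp : ∀ z, ((R z : ℝ) : ℂ) = ∑ s ∈ Λ.powerset, ∑ t ∈ s.powerset,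
      κ s t * eN ((∑ x ∈ t, x - ∑ x ∈ s \ t, x) * z) := by
    intro z
    have e1 : ∀ l, ((C + cs l z * S : ℝ) : ℂ) =
        ((S / 2 : ℝ) : ℂ) * (c l * eN (l * z) + conj (c l * eN (l * z))) + (C : ℂ) := fun l => by
      rw [Complex.add_conj]
      simp only [hcs]
      push_cast
      ring
    simp only [hR, Complex.ofReal_prod, e1]
    rw [prod_add]
    refine sum_congr rfl fun s _ => ?_
    rw [prod_mul_distrib, prod_const, prod_const, prod_add, mul_sum, sum_mul]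
    refine sum_congr rfl fun t _ => ?_
    have e2 : ∀ u : Finset (ZMod N), eN ((∑ x ∈ u, x) * z) = ∏ x ∈ u, eN (x * z) := fun u => by
      induction u using Finset.induction with
      | empty => simp [eN]
      | insert a u ha ih => rw [sum_insert ha, prod_insert ha, add_mul, eN_add, ih]
    rw [sub_mul, eN_sub, e2, e2, map_prod, prod_mul_distrib]
    simp only [map_mul, prod_mul_distrib, hκ]
    ring
  have hchar : ∀ m : ZMod N, (∑ f ∈ Φ, ∑ w ∈ W, eN (m * (w + ∑ i, f i))) =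
      (∑ w ∈ W, eN (m * w)) * (∑ t ∈ T, eN (m * t)) ^ n0 := by
    intro m
    rw [sum_pow', mul_sum]
    refine sum_congr rfl fun f _ => ?_
    rw [sum_mul]
    refine sum_congr rfl fun w _ => ?_
    rw [mul_add, eN_add, mul_sum]
    congr 1
    exact map_sum (ZMod.stdAddChar (N := N)).toAddMonoidHom _ _
  have hterm : ∀ s ∈ Λ.powerset, ∀ t ∈ s.powerset,
      ‖κ s t * ∑ f ∈ Φ, ∑ w ∈ W, eN ((∑ x ∈ t, x - ∑ x ∈ s \ t, x) * (w + ∑ i, f i))‖ ≤
        C ^ #(Λ \ s) * (S / 2) ^ #s * ((#W : ℝ) * #T ^ n0 *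
          (if s = ∅ then 1 else (1 / 2) ^ n0)) := by
    intro s hs t ht
    rw [mem_powerset] at hs ht
    have hκn : ‖κ s t‖ = C ^ #(Λ \ s) * (S / 2) ^ #s := by
      simp [hκ, hc1, abs_of_nonneg hC0, abs_of_nonneg hS0]
    rw [norm_mul, hκn, hchar, norm_mul, norm_pow]
    have hWn : ‖∑ w ∈ W, eN ((∑ x ∈ t, x - ∑ x ∈ s \ t, x) * w)‖ ≤ #W :=
      (norm_sum_le _ _).trans (by simp [norm_eN])
    refine mul_le_mul_of_nonneg_left ?_ (by positivity)
    rw [mul_assoc]
    refine mul_le_mul hWn ?_ (by positivity) (by positivity)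
    split_ifs with h
    · rw [mul_one]
      exact pow_le_pow_left₀ (norm_nonneg _) ((norm_sum_le _ _).trans (by simp [norm_eN])) _
    · rw [← mul_pow]
      refine pow_le_pow_left₀ (norm_nonneg _) ?_ _
      have := hdiss t (ht.trans hs) (s \ t) (sdiff_subset.trans hs) disjoint_sdiff
        (by rw [union_sdiff_of_subset ht]; exact nonempty_iff_ne_empty.2 h)
      rw [muHat, norm_div, Complex.norm_natCast, div_lt_iff₀ hTpos] at this
      linarith
  have hsum : ∑ f ∈ Φ, ∑ w ∈ W, R (w + ∑ i, f i) ≤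
      (#W : ℝ) * #T ^ n0 * (C ^ n + (1 / 2) ^ n0 * (C + S) ^ n) := by
    refine (le_abs_self _).trans ?_
    rw [← Real.norm_eq_abs, ← Complex.norm_real, Complex.ofReal_sum]
    simp only [Complex.ofReal_sum, hexp]
    rw [sum_comm_cycle]
    refine (norm_sum_le _ _).trans ?_
    refine le_trans (sum_le_sum (g := fun s => ∑ _t ∈ s.powerset, C ^ #(Λ \ s) * (S / 2) ^ #s *
      ((#W : ℝ) * #T ^ n0 * (if s = ∅ then 1 else (1 / 2) ^ n0))) fun s hs => ?_) ?_
    · rw [sum_comm_cycle]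
      refine (norm_sum_le _ _).trans (sum_le_sum fun t ht => ?_)
      simpa only [← mul_sum] using hterm s hs t ht
    · simp only [sum_const, card_powerset, nsmul_eq_mul, Nat.cast_pow, Nat.cast_ofNat]
      set A := (#W : ℝ) * #T ^ n0 with hA
      have hA0 : 0 ≤ A := by positivity
      calc ∑ s ∈ Λ.powerset, (2 : ℝ) ^ #s * (C ^ #(Λ \ s) * (S / 2) ^ #s *
            (A * if s = ∅ then 1 else (1 / 2) ^ n0))
          ≤ ∑ s ∈ Λ.powerset, (A * (if s = ∅ then C ^ n else 0) +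
              A * (1 / 2) ^ n0 * (S ^ #s * C ^ #(Λ \ s))) := by
            refine sum_le_sum fun s _ => ?_
            have e : (2 : ℝ) ^ #s * (C ^ #(Λ \ s) * (S / 2) ^ #s) = S ^ #s * C ^ #(Λ \ s) := by
              rw [mul_left_comm, ← mul_pow, mul_div_cancel₀ _ (two_ne_zero' ℝ)]; ring
            rw [← mul_assoc, e]
            split_ifs with h
            · subst h
              simp only [card_empty, pow_zero, one_mul, sdiff_empty, mul_one, hndef]
              have : 0 ≤ A * (1 / 2) ^ n0 * C ^ #Λ := by positivity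
              linarith
            · rw [mul_zero, zero_add]; ring_nf; rfl
        _ = A * (C ^ n + (1 / 2) ^ n0 * (C + S) ^ n) := by
            rw [sum_add_distrib, ← mul_sum, ← mul_sum, sum_ite_eq' Λ.powerset ∅]
            simp only [empty_mem_powerset, if_true]
            have := prod_add (fun _ => S) (fun _ => C) Λ
            simp only [prod_const] at this
            rw [← this, hndef, add_comm S C]
            ring
  -- numerics
  have hC1 : C ^ n ≤ Real.exp ((n : ℝ) / 8) := by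
    calc C ^ n ≤ Real.exp ((1 / 2) ^ 2 / 2) ^ n :=
          pow_le_pow_left₀ hC0 (Real.cosh_le_exp_half_sq _) _
      _ = _ := by rw [← Real.exp_nat_mul]; ring_nf
  have hCS : (1 / 2 : ℝ) ^ n0 * (C + S) ^ n ≤ 1 := by
    have e : C + S = Real.exp (1 / 2) := Real.cosh_add_sinh _
    have h2 : Real.exp (1 / 2) ≤ 2 := by
      have h := Real.exp_bound_div_one_sub_of_interval (show (0 : ℝ) ≤ 1 / 2 by norm_num)
        (show (1 / 2 : ℝ) < 1 by norm_num)
      refine h.trans ?_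
      norm_num
    rw [e]
    calc _ ≤ (1 / 2 : ℝ) ^ n * 2 ^ n := by
          refine mul_le_mul (pow_le_pow_of_le_one (by norm_num) (by norm_num) hn)
            (pow_le_pow_left₀ (Real.exp_pos _).le h2 _) (by positivity) (by positivity)
      _ = 1 := by rw [← mul_pow]; norm_num
  have h1e : 1 ≤ Real.exp ((n : ℝ) / 8) := Real.one_le_exp (by positivity)
  have hTn : (0 : ℝ) < (#T : ℝ) ^ n0 := by positivity
  have hfin : (#X : ℝ) * Real.exp ((n : ℝ) / 4) ≤ 4 * #T' * Real.exp ((n : ℝ) / 8) := by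
    refine le_of_mul_le_mul_left (le_trans ?_ ((hmaj.trans hsum).trans ?_)) hTn
    · exact mul_le_mul_of_nonneg_left hlow hTn.le
    · calc (#W : ℝ) * #T ^ n0 * (C ^ n + (1 / 2) ^ n0 * (C + S) ^ n)
          ≤ 2 * #T' * #T ^ n0 * (2 * Real.exp ((n : ℝ) / 8)) := by
            gcongr
            linarith
        _ = _ := by ring
  rw [le_div_iff₀ hXpos]
  have e : Real.exp ((n : ℝ) / 4) = Real.exp ((n : ℝ) / 8) * Real.exp ((n : ℝ) / 8) := by
    rw [← Real.exp_add]; ring_nf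
  rw [e] at hfin
  nlinarith [Real.exp_pos ((n : ℝ) / 8)]

/-- Few frequencies control the whole large spectrum. -/
lemma exists_spec_cover {X T' T W : Finset (ZMod N)} {n0 : ℕ} (hXne : X.Nonempty) (hX : X ⊆ T')
    (hT : T.Nonempty) (hW : ∀ x ∈ T', ∀ f : Fin n0 → ZMod N, (∀ i, f i ∈ T) → x - ∑ i, f i ∈ W)
    (hWcard : (#W : ℝ) ≤ 2 * #T') (hn0 : 4 * (#T' : ℝ) / #X < Real.exp ((n0 : ℝ) / 8)) :
    ∃ Λ : Finset (ZMod N), #Λ ≤ n0 ∧ ∀ r, 1 / 2 ≤ ‖muHat X r‖ → ∀ y : ZMod N, ∀ κ κ' : ℝ,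
      0 ≤ κ' → (∀ l ∈ Λ, de (l * y) ≤ κ) → (∀ δ, 1 / 2 ≤ ‖muHat T δ‖ → de (δ * y) ≤ κ') →
        0 ≤ κ → de (r * y) ≤ κ' + n0 * κ := by
  classical
  set Γs := univ.filter fun r : ZMod N => 1 / 2 ≤ ‖muHat X r‖ with hΓ
  have hsmall : ∀ Λ ⊆ Γs, Diss T Λ → #Λ < n0 := by
    intro Λ hΛ hd
    by_contra hc
    obtain ⟨Λ', hs, hcard⟩ := exists_subset_card_eq (not_lt.1 hc)
    have := riesz_bound hXne hX hT hW hWcard (hd.mono hs)
      (fun l hl => (mem_filter.1 (hΛ (hs hl))).2) hcard.le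
    rw [hcard] at this
    linarith
  obtain ⟨Λ, hΛ, hmax⟩ := exists_max_image (Γs.powerset.filter (Diss T)) card
    ⟨∅, mem_filter.2 ⟨empty_mem_powerset _, fun s hs t ht _ hne => by
      rw [subset_empty] at hs ht; simp [hs, ht] at hne⟩⟩
  obtain ⟨hΛsub, hΛd⟩ := mem_filter.1 hΛ
  rw [mem_powerset] at hΛsub
  have hcard : #Λ < n0 := hsmall Λ hΛsub hΛd
  refine ⟨Λ, hcard.le, fun r hr y κ κ' hκ' hl hδ hκ => ?_⟩
  have hsumle : ∀ u ⊆ Λ, de ((∑ x ∈ u, x) * y) ≤ #u * κ := fun u hu => by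
    refine (de_sum_le u y).trans ((sum_le_card_nsmul _ _ κ fun x hx => hl x (hu hx)).trans_eq ?_)
    rw [nsmul_eq_mul]
  by_cases hrΛ : r ∈ Λ
  · have h1 : (1 : ℝ) ≤ n0 := by exact_mod_cast (Nat.one_le_iff_ne_zero.2 (by omega))
    have := hl r hrΛ
    nlinarith
  have hnd : ¬ Diss T (insert r Λ) := fun hd => by
    have hsub : insert r Λ ⊆ Γs := insert_subset (mem_filter.2 ⟨mem_univ _, hr⟩) hΛsub
    have := hmax (insert r Λ) (mem_filter.2 ⟨mem_powerset.2 hsub, hd⟩)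
    rw [card_insert_of_notMem hrΛ] at this
    omega
  simp only [Diss, not_forall, not_lt] at hnd
  obtain ⟨s, hs, t, ht, hdis, hne, hbig⟩ := hnd
  have hsub : ∀ u ⊆ insert r Λ, r ∉ u → u ⊆ Λ := fun u hu hru x hx =>
    (mem_insert.1 (hu hx)).resolve_left (fun h => hru (h ▸ hx))
  have herase : ∀ u ⊆ insert r Λ, u.erase r ⊆ Λ := fun u hu x hx =>
    (mem_insert.1 (hu (mem_of_mem_erase hx))).resolve_left (ne_of_mem_erase hx)
  have key : ∀ u v : Finset (ZMod N), u ⊆ insert r Λ → v ⊆ insert r Λ → Disjoint u v → r ∈ u →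
      de ((∑ x ∈ u, x - ∑ x ∈ v, x) * y) ≤ κ' → de (r * y) ≤ κ' + n0 * κ := by
    intro u v hu hv hd hru hde
    have hrv : r ∉ v := disjoint_left.1 hd hru
    have e : r = (∑ x ∈ u, x - ∑ x ∈ v, x) + (∑ x ∈ v, x) + -(∑ x ∈ u.erase r, x) := by
      rw [← add_sum_erase _ _ hru]; abel
    have h1 := hsumle v (hsub v hv hrv)
    have h2 := hsumle _ (herase u hu)
    have h3 : ((#(u.erase r) : ℝ) + #v) ≤ n0 := by
      have hd' : Disjoint (u.erase r) v := disjoint_of_subset_left (erase_subset _ _) hd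
      have := card_le_card (union_subset (herase u hu) (hsub v hv hrv))
      rw [card_union_of_disjoint hd'] at this
      exact_mod_cast this.trans hcard.le
    rw [e, add_mul, add_mul, neg_mul]
    refine (de_add_le _ _).trans ?_
    rw [de_neg]
    have h4 := de_add_le ((∑ x ∈ u, x - ∑ x ∈ v, x) * y) ((∑ x ∈ v, x) * y)
    nlinarith
  have hbase := hδ _ hbig
  by_cases hrs : r ∈ s
  · exact key s t hs ht hdis hrs hbase
  · by_cases hrt : r ∈ t
    · refine key t s ht hs hdis.symm hrt ?_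
      rwa [← neg_sub, neg_mul, de_neg]
    · exact absurd (hΛd s (hsub s hs hrs) t (hsub t ht hrt) hdis hne) (not_lt.2 hbig)

/-- Translations nearly preserving `T` nearly fix its large spectrum. -/
lemma de_le_of_spec {T Tp : Finset (ZMod N)} (hT : T.Nonempty) {η : ℝ} (hsub : T ⊆ Tp)
    (hcard : (#Tp : ℝ) ≤ (1 + η) * #T) {y δ : ZMod N} (hy : ∀ t ∈ T, t + y ∈ Tp)
    (hδ : 1 / 2 ≤ ‖muHat T δ‖) : de (δ * y) ≤ 4 * η := by
  classical
  have hTpos : (0 : ℝ) < #T := by exact_mod_cast hT.card_pos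
  set T1 := T.image fun t => t + y with hT1
  have hT1sub : T1 ⊆ Tp := fun x hx => by obtain ⟨t, ht, rfl⟩ := mem_image.1 hx; exact hy t ht
  have hT1card : #T1 = #T := card_image_of_injective _ (add_left_injective y)
  set s := ∑ t ∈ T, eN (δ * t) with hs
  have h1 : (eN (δ * y) - 1) * s = ∑ x ∈ T1, eN (δ * x) - s := by
    rw [sub_mul, one_mul, hT1, sum_image fun a _ b _ h => add_left_injective y h, hs, mul_sum]
    congr 1
    refine sum_congr rfl fun t _ => ?_
    rw [mul_add, eN_add, mul_comm]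
  have hb : ∀ (U : Finset (ZMod N)), ‖∑ x ∈ U, eN (δ * x)‖ ≤ #U := fun U =>
    (norm_sum_le _ _).trans (by simp [norm_eN])
  have h2 : ‖∑ x ∈ T1, eN (δ * x) - s‖ ≤ 2 * (η * #T) := by
    have e : ∑ x ∈ T1, eN (δ * x) - s =
        ∑ x ∈ Tp \ T, eN (δ * x) - ∑ x ∈ Tp \ T1, eN (δ * x) := by
      rw [sum_sdiff_eq_sub hsub, sum_sdiff_eq_sub hT1sub, hs]; ring
    rw [e]
    refine (norm_sub_le _ _).trans ?_
    refine (add_le_add (hb _) (hb _)).trans ?_
    rw [cast_card_sdiff hsub, cast_card_sdiff hT1sub, hT1card]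
    linarith
  rw [← h1, norm_mul] at h2
  rw [muHat, norm_div, Complex.norm_natCast, le_div_iff₀ hTpos, ← hs] at hδ
  unfold de
  nlinarith [norm_nonneg (eN (δ * y) - 1)]

end Vale.Agent.P057.Sixth
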