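import Vale.Agent.P057.Sixth.Periodic

/-!
# The Fourier side on `ZMod N`
-/

namespace Vale.Agent.P057.Sixth

open Finset ComplexConjugate

set_option linter.unusedSectionVars false

variable {N : ℕ} [NeZero N]

/-- The standard character. -/
noncomputable abbrev eN (x : ZMod N) : ℂ := ZMod.stdAddChar x

lemma norm_eN (x : ZMod N) : ‖eN x‖ = 1 := by
  simp only [eN, ZMod.stdAddChar_apply, Circle.norm_coe]

lemma eN_neg (x : ZMod N) : eN (-x) = conj (eN x) := AddChar.map_neg_eq_conj _ _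

lemma eN_add (x y : ZMod N) : eN (x + y) = eN x * eN y := AddChar.map_add_eq_mul _ _ _

lemma eN_sub (x y : ZMod N) : eN (x - y) = eN x * conj (eN y) := by
  rw [sub_eq_add_neg, eN_add, eN_neg]

lemma sum_eN_mul (y : ZMod N) : ∑ r : ZMod N, eN (r * y) = if y = 0 then (N : ℂ) else 0 := by
  rcases eq_or_ne y 0 with rfl | hy
  · simp [eN]
  rw [if_neg hy]
  have h := ZMod.isPrimitive_stdAddChar N hy
  simp_rw [mul_comm _ y]
  exact (AddChar.sum_eq_zero_iff_ne_zero).2 h

/-- The normalised Fourier coefficient of a set. -/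
noncomputable def muHat (X : Finset (ZMod N)) (r : ZMod N) : ℂ :=
  (∑ x ∈ X, eN (r * x)) / (#X : ℂ)

lemma av_re_eN (U : Finset (ZMod N)) (r : ZMod N) :
    av U (fun y => (eN (r * y)).re) = ‖muHat U r‖ ^ 2 := by
  rw [av_eq, ← Complex.normSq_eq_norm_sq, muHat, map_div₀, Complex.normSq_natCast, ← sq]
  congr 1
  rw [← Complex.ofReal_re (Complex.normSq _), ← Complex.mul_conj, map_sum, sum_mul_sum, Complex.re_sum]
  refine sum_congr rfl fun u _ => ?_
  rw [Complex.re_sum]
  refine sum_congr rfl fun v _ => ?_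
  rw [mul_sub, eN_sub]

/-- The Fourier weights of the autocorrelation. -/
noncomputable def autoCoef (A B : Finset (ZMod N)) (r : ZMod N) : ℝ :=
  (#B : ℝ) * ‖∑ a ∈ A, eN (r * a)‖ ^ 2 / ((#A : ℝ) ^ 2 * N)

lemma autoCoef_nonneg (A B : Finset (ZMod N)) (r : ZMod N) : 0 ≤ autoCoef A B r := by
  unfold autoCoef; positivity

lemma autoH_fourier (A B : Finset (ZMod N)) (y : ZMod N) :
    autoH A B y = ∑ r, autoCoef A B r * (eN (r * y)).re := by
  have hN : (N : ℝ) ≠ 0 := by exact_mod_cast NeZero.ne N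
  have key : ∑ r, ((‖∑ a ∈ A, eN (r * a)‖ ^ 2 : ℝ) : ℂ) * eN (r * y) =
      (N : ℂ) * #(A.filter fun x => x + y ∈ A) := by
    simp only [← Complex.normSq_eq_norm_sq, ← Complex.mul_conj, map_sum]
    simp only [sum_mul]
    simp only [mul_sum, sum_mul]
    rw [sum_comm]
    have inner : ∀ a ∈ A, ∑ r : ZMod N, ∑ b ∈ A, eN (r * a) * conj (eN (r * b)) * eN (r * y) =
        (N : ℂ) * (if a + y ∈ A then 1 else 0) := by
      intro a _
      rw [sum_comm]
      have : ∀ b r : ZMod N, eN (r * a) * conj (eN (r * b)) * eN (r * y) =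
          eN (r * (a + y - b)) := fun b r => by
        rw [← eN_sub, ← eN_add]; ring_nf
      simp only [this, sum_eN_mul, sub_eq_zero]
      rw [sum_ite_eq]
      split_ifs <;> simp
    rw [sum_congr rfl inner, ← mul_sum, sum_boole]
  have key' : ∑ r, ‖∑ a ∈ A, eN (r * a)‖ ^ 2 * (eN (r * y)).re =
      (N : ℝ) * #(A.filter fun x => x + y ∈ A) := by
    have := congrArg Complex.re key
    rw [Complex.re_sum] at this
    simp only [Complex.re_ofReal_mul] at this
    rwa [← Nat.cast_mul, Complex.natCast_re, Nat.cast_mul] at this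
  calc autoH A B y = (#B : ℝ) / ((#A : ℝ) ^ 2 * N) * ((N : ℝ) * #(A.filter fun x => x + y ∈ A)) := by
        unfold autoH
        field_simp
    _ = _ := by
        rw [← key', mul_sum]
        exact sum_congr rfl fun r _ => by unfold autoCoef; ring

lemma iter_shiftAvg_re_eN {X : Finset (ZMod N)} (r : ZMod N) :
    ∀ (n : ℕ) (z : ZMod N), (shiftAvg X)^[n] (fun y => (eN (r * y)).re) z =
      ‖muHat X r‖ ^ (2 * n) * (eN (r * z)).re
  | 0, z => by simp
  | n + 1, z => by
      simp only [Function.iterate_succ', Function.comp_apply, shiftAvg, iter_shiftAvg_re_eN r n]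
      have h : (∑ p ∈ X ×ˢ X, (eN (r * (z + (p.1 - p.2)))).re) / (#X : ℝ) ^ 2 =
          ‖muHat X r‖ ^ 2 * (eN (r * z)).re := by
        rw [← Complex.re_ofReal_mul, ← Complex.normSq_eq_norm_sq, muHat, map_div₀,
          Complex.normSq_natCast, ← Complex.re_sum, ← sq, ← Complex.div_ofReal_re]
        congr 1
        rw [Complex.ofReal_div, ← Complex.mul_conj, map_sum, sum_mul_sum, ← sum_product',
          div_mul_eq_mul_div, sum_mul]
        congr 1
        refine sum_congr rfl fun p _ => ?_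
        rw [mul_add, eN_add, mul_sub, eN_sub]
        ring
      rw [← mul_sum, mul_div_assoc, h]
      ring

lemma av_iter_fourier (A B U X : Finset (ZMod N)) (n : ℕ) :
    av U ((shiftAvg X)^[n] (autoH A B)) =
      ∑ r, autoCoef A B r * ‖muHat U r‖ ^ 2 * ‖muHat X r‖ ^ (2 * n) := by
  have h : autoH A B = fun y => ∑ r, autoCoef A B r * (eN (r * y)).re :=
    funext (autoH_fourier A B)
  rw [h]
  have h2 : ∀ z, (shiftAvg X)^[n] (fun y => ∑ r, autoCoef A B r * (eN (r * y)).re) z =
      ∑ r, autoCoef A B r * (‖muHat X r‖ ^ (2 * n) * (eN (r * z)).re) := fun z => by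
    rw [iter_shiftAvg_sum]
    simp only [iter_shiftAvg_mul, iter_shiftAvg_re_eN]
  rw [funext h2]
  have h3 : ∀ φ : ZMod N → ZMod N → ℝ, av U (fun y => ∑ r, φ r y) = ∑ r, av U (φ r) := fun φ => by
    simp only [av, ← sum_div]
    rw [sum_comm]
  rw [h3]
  refine sum_congr rfl fun r _ => ?_
  rw [av_mul_left, av_mul_left, av_re_eN]
  ring

/-- If `Y` has Fourier coefficients near `1` on the large spectrum of `X`, averaging over `Y` keeps
the bulk of an average over the differences of `X`. -/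
lemma fourier_transfer {A B U X Y : Finset (ZMod N)} {k : ℕ}
    (h : ∀ r, (1 : ℝ) / 2 ≤ ‖muHat X r‖ → 0.99 ≤ ‖muHat Y r‖) :
    0.98 * (av U ((shiftAvg X)^[k] (autoH A B)) - (1 / 4) ^ k * av U (autoH A B)) ≤
      av U (shiftAvg Y (autoH A B)) := by
  have e0 := av_iter_fourier A B U X 0
  have e1 := av_iter_fourier A B U Y 1
  simp only [Function.iterate_zero, id_eq, mul_zero, pow_zero, mul_one] at e0
  simp only [Function.iterate_one, mul_one] at e1
  rw [av_iter_fourier, e0, e1, mul_sum, ← sum_sub_distrib, mul_sum]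
  refine sum_le_sum fun r _ => ?_
  have hc : 0 ≤ autoCoef A B r * ‖muHat U r‖ ^ 2 :=
    mul_nonneg (autoCoef_nonneg _ _ _) (by positivity)
  have hX1 : ‖muHat X r‖ ≤ 1 := by
    rcases X.eq_empty_or_nonempty with rfl | hX
    · simp [muHat]
    · rw [muHat, norm_div, Complex.norm_natCast, div_le_one (by exact_mod_cast hX.card_pos)]
      refine (norm_sum_le _ _).trans ?_
      simp [norm_eN]
  rcases le_or_gt ((1 : ℝ) / 2) ‖muHat X r‖ with hr | hr
  · have h1 : (0.98 : ℝ) ≤ ‖muHat Y r‖ ^ 2 := by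
      have := h r hr; nlinarith
    have h2 : ‖muHat X r‖ ^ (2 * k) ≤ 1 := pow_le_one₀ (norm_nonneg _) hX1
    have h3 : (0 : ℝ) ≤ (1 / 4) ^ k := by positivity
    nlinarith [mul_le_mul_of_nonneg_left h1 hc, mul_le_mul_of_nonneg_left h2 hc,
      mul_nonneg h3 hc]
  · have h2 : ‖muHat X r‖ ^ (2 * k) ≤ (1 / 4) ^ k := by
      rw [pow_mul]
      exact pow_le_pow_left₀ (by positivity) (by nlinarith [norm_nonneg (muHat X r)]) _
    have h3 : (0 : ℝ) ≤ ‖muHat Y r‖ ^ 2 := by positivity
    nlinarith [mul_le_mul_of_nonneg_left h2 hc, mul_nonneg h3 hc]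

/-- The average autocorrelation over differences of `Y` is at most the best density on a translate of `Y`. -/
lemma av_shiftAvg_le {A B U Y : Finset (ZMod N)} (hA : A.Nonempty) (hU : U.Nonempty)
    (hY : Y.Nonempty) {M : ℝ} (hM : ∀ t, (#(Y.filter fun b => t + b ∈ A) : ℝ) ≤ M) :
    av U (shiftAvg Y (autoH A B)) ≤ (#B : ℝ) / #A * M / #Y := by
  have hApos : (0 : ℝ) < #A := by exact_mod_cast hA.card_pos
  have hUpos : (0 : ℝ) < #U := by exact_mod_cast hU.card_pos
  have hYpos : (0 : ℝ) < #Y := by exact_mod_cast hY.card_pos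
  have key : ∀ c : ZMod N,
      ∑ p ∈ Y ×ˢ Y, (#(A.filter fun a => a + (c + (p.1 - p.2)) ∈ A) : ℝ) ≤ #Y * (#A * M) := by
    intro c
    rw [sum_product_right]
    refine (sum_le_card_nsmul _ _ _ fun x' _ => ?_).trans_eq (nsmul_eq_mul _ _)
    simp only [← sum_boole]
    rw [sum_comm]
    refine (sum_le_card_nsmul _ _ _ fun a _ => ?_).trans_eq (nsmul_eq_mul _ _)
    rw [sum_boole]
    have := hM (a + c - x')
    have e : ∀ b : ZMod N, a + (c + (b - x')) = a + c - x' + b := fun b => by abel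
    simpa only [e] using this
  have hs : ∀ z, shiftAvg Y (autoH A B) z ≤ (#B : ℝ) / #A * M / #Y := by
    intro z
    rw [shiftAvg, div_le_iff₀ (by positivity)]
    simp only [autoH, ← sum_div, ← mul_sum]
    rw [div_le_iff₀ (by positivity)]
    calc _ ≤ (#B : ℝ) * (#Y * (#A * M)) := by gcongr; exact key z
      _ = _ := by field_simp
  exact (av_mono fun u _ v _ => hs _).trans_eq (av_const hU _)

end Vale.Agent.P057.Sixth
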