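import Vale.Agent.P057.Sixth.Sift
import Vale.Agent.P057.Sixth.Chang

/-!
# One step of the density increment
-/

namespace Vale.Agent.P057.Sixth

open Finset

set_option linter.unusedSectionVars false

/-- Number of elements `b ∈ B` with `z + b ∈ A`. -/
def cnt {G : Type*} [AddCommGroup G] [DecidableEq G] (A : Finset G) (z : G) (B : Finset G) : ℕ :=
  #(B.filter fun b => z + b ∈ A)

/-- No nontrivial solution of `a + c = 2 * b`. -/
def NoAP {N : ℕ} (A : Finset (ZMod N)) : Prop :=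
  ∀ a ∈ A, ∀ b ∈ A, ∀ c ∈ A, a + c = 2 * b → a = b

/-- `log 1/β` in base two, for the sifted set. -/
def siftB (ℓ : ℕ) : ℕ := 22000 * ℓ * ℓ + 7

/-- The number of samples. -/
def sampM (ℓ : ℕ) : ℕ := (siftB ℓ + 2) * 5000000

/-- The rank gained in one step. -/
def rankGain (ℓ : ℕ) : ℕ := 8 * ((siftB ℓ + 1) * sampM ℓ + 4)

lemma rankGain_le {ℓ : ℕ} (hℓ : 1 ≤ ℓ) :
    rankGain ℓ ≤ 8 * (22008 * (22009 * 5000000) + 4) * ℓ ^ 4 := by
  have h1 : siftB ℓ + 1 ≤ 22008 * ℓ ^ 2 := by unfold siftB; nlinarith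
  have h2 : sampM ℓ ≤ 22009 * 5000000 * ℓ ^ 2 := by unfold sampM siftB; nlinarith
  have h3 : 1 ≤ ℓ ^ 4 := Nat.one_le_pow _ _ hℓ
  have h4 := Nat.mul_le_mul h1 h2
  unfold rankGain
  nlinarith

lemma one_le_rankGain (ℓ : ℕ) : 1 ≤ rankGain ℓ := by unfold rankGain; omega

lemma one_le_rankGain_real (ℓ : ℕ) : (1 : ℝ) ≤ rankGain ℓ := by exact_mod_cast one_le_rankGain ℓ

/-- The rank gain beats the losses of sampling. -/
lemma pow_lt_exp_rankGain (ℓ : ℕ) :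
    4 * (2 * ((2 : ℝ) ^ (siftB ℓ + 1)) ^ sampM ℓ) < Real.exp ((rankGain ℓ : ℝ) / 8) := by
  rw [rankGain]
  generalize siftB ℓ + 1 = b
  generalize sampM ℓ = m
  calc 4 * (2 * ((2 : ℝ) ^ b) ^ m) = (2 : ℝ) ^ (b * m + 3) := by
        rw [pow_add, pow_mul]; ring
    _ ≤ Real.exp 1 ^ (b * m + 3) := pow_le_pow_left₀ (by norm_num)
        (by linarith [Real.exp_one_gt_d9]) _
    _ < _ := by
        rw [← Real.exp_nat_mul, Real.exp_lt_exp]
        push_cast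
        linarith

/-- The sampling parameters at the sifted density. -/
lemma sampM_eq (ℓ : ℕ) : (siftB ℓ + 2) * 5000000 = sampM ℓ := rfl

section Core

variable {G : Type*} [AddCommGroup G] [DecidableEq G] [Fintype G]

/-- Hölder, unbalancing, the stable moment and sifting combined. -/
lemma core {A B T C : Finset G} {ℓ : ℕ} (hℓ : 1 ≤ ℓ) (hA : A.Nonempty) (hAB : A ⊆ B)
    (hB : ∀ x ∈ B, -x ∈ B) (hTne : T.Nonempty) (hT : ∀ u ∈ T, -u ∈ T)
    (hAT : ∀ a ∈ A, ∀ u ∈ T, ∀ v ∈ T, a + (u - v) ∈ B)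
    (hsize : (#B : ℝ) ≤ 0.001 * (#A : ℝ) ^ 2)
    (hD : (#B : ℝ) / #A ≤ 2 ^ ℓ)
    (hC : (1 : ℝ) / 2 ^ ℓ ≤ av T (ind C))
    (hfew : ∀ y ∈ C, #(A.filter fun a => y - a ∈ A) ≤ 1) :
    ∃ θ : ℝ, ∃ U ⊆ T, U.Nonempty ∧ 1.164 ≤ θ ∧ (#T : ℝ) ≤ 2 ^ siftB ℓ * #U ∧
      av U (fun y => if autoH A B y ≤ θ then 1 else 0) ≤ 0.02 ∧ av U (autoH A B) ≤ 11 * θ := by
  classical
  have hp0 : ((0.99 : ℝ) / 0.999) ^ (200 * ℓ) ≤ av T (ind C) := by
    refine le_trans ?_ hC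
    rw [pow_mul, one_div, ← inv_pow]
    exact pow_le_pow_left₀ (by positivity) (by norm_num) _
  obtain ⟨q, hq1, hq2, hMq⟩ := exists_autoH_moment hA hAB hB hTne hT hAT hsize
    (p := 200 * ℓ) ((by decide : Even 200).mul_right ℓ) (by omega) hp0 hfew
  set H := autoH A B with hH
  set M : ℕ → ℝ := fun j => av T fun y => H y ^ j with hM
  have hH0 : ∀ y, 0 ≤ H y := autoH_nonneg A B
  have hApos : (0 : ℝ) < #A := by exact_mod_cast hA.card_pos
  have hBpos : (0 : ℝ) < #B := by exact_mod_cast (hA.mono hAB).card_pos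
  have hstep : ∀ j, M (j + 1) ≤ (#B : ℝ) / #A * M j := fun j => by
    simp only [hM]
    rw [← av_mul_left]
    refine av_mono fun u _ v _ => ?_
    rw [pow_succ']
    exact mul_le_mul_of_nonneg_right (autoH_le A B _) (pow_nonneg (hH0 _) _)
  obtain ⟨rp, ρ, k, p, hpk, hp, hρ, -, hMk, hMp, hrp0, hrp, hr⟩ :=
    exists_stable_ratio (M := M) (D := (#B : ℝ) / #A) (b := 1.2) (s := 1.01) (n := 100 * ℓ)
      (R := 200) (by simp only [hM, pow_zero]; exact av_const hTne 1)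
      (fun j => av_nonneg fun y => pow_nonneg (hH0 y) j) (av_moment_convex T hH0) hstep
      (by norm_num) (by norm_num) hq1 hMq (by
        refine lt_of_le_of_lt hD ?_
        rw [pow_mul]
        calc (2 : ℝ) ^ ℓ ≤ ((1.01 : ℝ) ^ 100) ^ ℓ :=
              pow_le_pow_left₀ (by norm_num) (by norm_num) _
          _ < _ := lt_mul_of_one_lt_left (by positivity) (by norm_num))
  have hρ0 : 0 ≤ ρ := le_trans (by norm_num) hρ
  set θ := 0.97 * ρ with hθ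
  have hlow : av T (fun y => (if H y ≤ θ then 1 else 0) * H y ^ p) ≤ 0.003 * M p := by
    calc _ ≤ av T (fun y => θ ^ 200 * H y ^ k) := av_mono fun u _ v _ => by
          split_ifs with h
          · rw [one_mul, hpk, pow_add, mul_comm]
            exact mul_le_mul_of_nonneg_right (pow_le_pow_left₀ (hH0 _) h _) (pow_nonneg (hH0 _) _)
          · rw [zero_mul]; exact mul_nonneg (by positivity) (pow_nonneg (hH0 _) _)
      _ = (0.97 : ℝ) ^ 200 * (ρ ^ 200 * M k) := by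
          rw [av_mul_left, hθ, mul_pow, mul_assoc]
      _ ≤ 0.003 * M p := by
          refine mul_le_mul (by norm_num) hMk ?_ (by norm_num)
          exact mul_nonneg (by positivity) (av_nonneg fun y => pow_nonneg (hH0 y) _)
  obtain ⟨U, hUT, hUne, hUcard, hU1, hU2⟩ := exists_sift hA hAB hTne hrp0 hMp hr hlow
  refine ⟨θ, U, hUT, hUne, by linarith, ?_, hU1, hU2.trans (by linarith)⟩
  have hP : p ≤ 22000 * ℓ := by omega
  have h1 : ((1 : ℝ) / 2 ^ ℓ) ^ (22000 * ℓ) ≤ ((#A : ℝ) / #B) ^ p := by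
    have hle : (1 : ℝ) / 2 ^ ℓ ≤ (#A : ℝ) / #B := by
      rw [div_le_div_iff₀ (by positivity) hBpos]
      rw [div_le_iff₀ hApos] at hD
      linarith
    exact (pow_le_pow_of_le_one (by positivity)
      (div_le_one_of_le₀ (one_le_pow₀ (by norm_num)) (by positivity)) hP).trans
      (pow_le_pow_left₀ (by positivity) hle _)
  have h2 : (1 : ℝ) / 2 ^ siftB ℓ ≤ 0.01 * ((#A : ℝ) / #B) ^ p := by
    refine le_trans ?_ (mul_le_mul_of_nonneg_left h1 (by norm_num))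
    rw [div_pow, one_pow, ← pow_mul, siftB, pow_add,
      show ℓ * (22000 * ℓ) = 22000 * ℓ * ℓ by ring]
    have hw : (0 : ℝ) < 2 ^ (22000 * ℓ * ℓ) := by positivity
    generalize (2 : ℝ) ^ (22000 * ℓ * ℓ) = w at hw ⊢
    rw [div_le_iff₀ (by positivity)]
    field_simp
    norm_num
  have h3 : (1 : ℝ) / 2 ^ siftB ℓ * #T ≤ #U :=
    (mul_le_mul_of_nonneg_right h2 (Nat.cast_nonneg _)).trans hUcard
  rw [one_div, inv_mul_le_iff₀ (by positivity)] at h3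
  exact h3

end Core

variable {N : ℕ} [NeZero N]

attribute [local irreducible] siftB sampM rankGain

lemma sum_translates {ι G : Type*} [AddCommGroup G] [DecidableEq G] (A Dp : Finset G)
    (S : Finset ι) (φ : ι → G) (h : ∀ a ∈ A, ∀ s ∈ S, a - φ s ∈ Dp) :
    (#A : ℝ) * #S ≤ ∑ x ∈ Dp, (#(S.filter fun s => x + φ s ∈ A) : ℝ) := by
  classical
  simp only [← sum_boole]
  rw [sum_comm, mul_comm, ← nsmul_eq_mul, ← sum_const]
  refine sum_le_sum fun s hs => ?_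
  rw [sum_boole, Nat.cast_le, ← card_image_of_injective A (sub_left_injective (b := φ s))]
  refine card_le_card fun x hx => ?_
  obtain ⟨a, ha, rfl⟩ := mem_image.1 hx
  exact mem_filter.2 ⟨h a ha s hs, by rwa [sub_add_cancel]⟩

/-- Almost-periods of a sifted set inside a tiny Bohr set. -/
lemma exists_dense_periods {Γ : Finset (ZMod N)} {A B U : Finset (ZMod N)} {ℓ : ℕ} {ρT θ : ℝ}
    (hstab : Stable Γ ρT) (hθ : 0 ≤ θ) (hU : U.Nonempty) (hUT : U ⊆ bohr Γ ρT)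
    (hUcard : (#(bohr Γ ρT) : ℝ) ≤ 2 ^ siftB ℓ * #U)
    (hbad : av U (fun y => if autoH A B y ≤ θ then 1 else 0) ≤ 0.02) :
    ∃ ρ' : ℝ, ∃ X : Finset (ZMod N), Stable Γ ρ' ∧ ρ' ≤ ρT ∧ stab #Γ * ρT / 36 ≤ ρ' ∧
      X ⊆ bohr Γ ρ' ∧ X.Nonempty ∧
      4 * (#(bohr Γ ρ') : ℝ) / #X < Real.exp ((rankGain ℓ : ℝ) / 8) ∧
      0.96 * θ ≤ av U ((shiftAvg X)^[8] (autoH A B)) := by
  classical
  obtain ⟨hρTpos, hTstab⟩ := hstab
  set σ := stab #Γ with hσ
  have hσpos : 0 < σ := stab_pos _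
  have hσle : σ ≤ 1 / 16000 := stab_le _
  obtain ⟨ρ', hρ'1, hρ'2, hst'⟩ := exists_stable Γ (r := σ * ρT / 18) (by positivity)
  have hρ'pos := hst'.1
  set Ω := bohr Γ (ρT * (1 + σ)) with hΩdef
  have hpow := pow_lt_exp_rankGain ℓ
  have hm := sampM_eq ℓ
  set b := siftB ℓ with hb
  clear_value b
  set S := (univ : Finset (ZMod N)).filter fun y => θ < autoH A B y with hS
  have hUpos : (0 : ℝ) < #U := by exact_mod_cast hU.card_pos
  have hΩU : 2 * (#Ω : ℝ) * (Real.exp 1 / (5000000 : ℕ)) ^ (b + 2) ≤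
      #U * (1 / 800) ^ (2 * (b + 2)) := by
    have e1 : (Real.exp 1 / (5000000 : ℕ) : ℝ) ≤ (1 / 800) ^ 2 / 2 := by
      have := Real.exp_one_lt_d9
      norm_num
      linarith
    have e2 : (Real.exp 1 / (5000000 : ℕ) : ℝ) ^ (b + 2) ≤
        (1 / 800) ^ (2 * (b + 2)) / 2 ^ (b + 2) := by
      rw [pow_mul, ← div_pow]
      exact pow_le_pow_left₀ (by positivity) e1 _
    have e3 : 2 * (#Ω : ℝ) ≤ 4 * (2 ^ b * #U) := by linarith
    refine (mul_le_mul e3 e2 (by positivity) (by positivity)).trans_eq ?_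
    generalize (1 / 800 : ℝ) ^ (2 * (b + 2)) = c
    rw [pow_add (2 : ℝ)]
    field_simp
    ring
  obtain ⟨X, hXT, hXne, hXsize, hboot⟩ := exists_bootstrap (U := U) (T' := bohr Γ ρ') (W := Ω)
    (Ω := Ω) S hU ⟨0, zero_mem_bohr hρ'pos.le⟩ (q := b + 2) (K := 5000000) (k := 8) (δ := 1 / 800)
    (by omega) (by norm_num) (by norm_num)
    (fun u hu t ht => add_mem_bohr (hUT hu) ht (by nlinarith)) hΩU
    (fun i z => i ≤ 8 ∧ z ∈ bohr Γ (2 * (8 - i : ℕ) * ρ'))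
    ⟨le_rfl, zero_mem_bohr (by simp)⟩
    (fun i z hz u hu => add_mem_bohr (hUT hu) hz.2 (by
      have : ((8 - i : ℕ) : ℝ) ≤ 8 := by exact_mod_cast (by omega : 8 - i ≤ 8)
      nlinarith))
    (fun i z hz t ht t' ht' => ⟨by have := hz.1; omega,
      add_mem_bohr hz.2 (sub_mem_bohr ht ht' le_rfl) (by
      have : ((8 - i : ℕ) : ℝ) = ((8 - (i + 1) : ℕ) : ℝ) + 1 := by
        exact_mod_cast (by have := hz.1; omega : 8 - i = 8 - (i + 1) + 1)
      rw [this]; linarith)⟩)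
  rw [hm] at hXsize
  generalize sampM ℓ = m at hXsize hpow hm
  generalize rankGain ℓ = n0 at hpow ⊢
  have hXpos : (0 : ℝ) < #X := by exact_mod_cast hXne.card_pos
  refine ⟨ρ', X, hst', by nlinarith, by linarith, hXT, hXne, ?_, ?_⟩
  · refine lt_of_le_of_lt ?_ hpow
    rw [mul_div_assoc]
    gcongr
    rw [div_le_iff₀ hXpos]
    have hΩ2 : (#Ω : ℝ) ≤ 2 ^ (b + 1) * #U := by rw [pow_succ]; linarith
    refine le_of_mul_le_mul_left (hXsize.trans ?_) (show (0 : ℝ) < (#U : ℝ) ^ m by positivity)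
    calc 2 * (#Ω : ℝ) ^ m * #X ≤ 2 * ((2 : ℝ) ^ (b + 1) * #U) ^ m * #X := by gcongr
      _ = _ := by rw [mul_pow]; ring
  have hS' : ∀ y, θ * ind S y ≤ autoH A B y := fun y => by
    unfold ind
    split_ifs with hy
    · rw [mul_one]; exact (mem_filter.1 hy).2.le
    · rw [mul_zero]; exact autoH_nonneg _ _ _
  have h1 : θ * av U ((shiftAvg X)^[8] (ind S)) ≤ av U ((shiftAvg X)^[8] (autoH A B)) := by
    rw [← av_mul_left]
    refine av_mono fun u _ v _ => ?_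
    rw [← iter_shiftAvg_mul]
    exact iter_shiftAvg_mono X hS' 8 _
  have h2 : (0.98 : ℝ) ≤ av U (ind S) := by
    have e : av U (ind S) = av U (fun _ => 1) - av U (fun y => if autoH A B y ≤ θ then 1 else 0) := by
      rw [← av_sub]
      refine av_congr fun u _ v _ => ?_
      simp only [ind, hS, mem_filter, mem_univ, true_and]
      split_ifs with c d <;> linarith
    rw [e, av_const hU]
    linarith
  have h6 : θ * 0.96 ≤ θ * av U ((shiftAvg X)^[8] (ind S)) := by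
    refine mul_le_mul_of_nonneg_left ?_ hθ
    push_cast at hboot
    linarith
  linarith

/-- A Bohr set of slightly larger rank on which the large spectrum of `X` is almost constant. -/
lemma exists_near_one {Γ X : Finset (ZMod N)} {ρ' : ℝ} {n0 Dmax : ℕ} (hn1 : 1 ≤ n0)
    (hst : Stable Γ ρ') (hρ'1 : ρ' ≤ 1) (hDmax : #Γ ≤ Dmax) (hXT : X ⊆ bohr Γ ρ')
    (hXne : X.Nonempty)
    (hbig : 4 * (#(bohr Γ ρ') : ℝ) / #X < Real.exp ((n0 : ℝ) / 8)) :
    ∃ Γ2 : Finset (ZMod N), ∃ ρ2 : ℝ, Stable Γ2 ρ2 ∧ ρ2 ≤ 1 ∧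
      stab Dmax ^ 2 * ρ' / (8000 * (n0 : ℝ) ^ 2) ≤ ρ2 ∧ #Γ2 ≤ #Γ + n0 ∧
      ∀ r, (1 : ℝ) / 2 ≤ ‖muHat X r‖ → 0.99 ≤ ‖muHat (bohr Γ2 ρ2) r‖ := by
  classical
  obtain ⟨hρ'pos, hρ'stab⟩ := hst
  set σ := stab #Γ with hσ
  have hσpos : 0 < σ := stab_pos _
  have hσle : σ ≤ 1 / 16000 := stab_le _
  have hκle : stab Dmax ≤ σ := stab_anti hDmax
  have hκpos : 0 < stab Dmax := stab_pos _
  have hn1R : (1 : ℝ) ≤ n0 := by exact_mod_cast hn1
  have hn0pos : (0 : ℝ) < n0 := by linarith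
  obtain ⟨ρ3, hρ31, hρ32, hρ3pos, hρ3stab⟩ := exists_stable Γ (r := σ * ρ' / n0) (by positivity)
  obtain ⟨Λ, hΛcard, hΛ⟩ := exists_spec_cover (T := bohr Γ ρ3) (W := bohr Γ (ρ' * (1 + σ))) hXne hXT
    ⟨0, zero_mem_bohr hρ3pos.le⟩
    (fun x hx f hf => by
      have hsum : ∀ s : Finset (Fin n0), ∑ i ∈ s, f i ∈ bohr Γ (#s * ρ3) := fun s => by
        induction s using Finset.induction with
        | empty => exact zero_mem_bohr (by simp)
        | insert a s ha ih =>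
          rw [sum_insert ha, card_insert_of_notMem ha]
          exact add_mem_bohr (hf a) ih (by push_cast; linarith)
      refine sub_mem_bohr hx (hsum univ) ?_
      rw [card_univ, Fintype.card_fin]
      rw [le_div_iff₀ hn0pos] at hρ32
      linarith)
    (by linarith [(Nat.cast_nonneg #(bohr Γ ρ') : (0 : ℝ) ≤ #(bohr Γ ρ'))]) hbig
  set Γ2 := Γ ∪ Λ with hΓ2
  have hr2pos : 0 < min (σ * ρ3) (1 / (2000 * (n0 : ℝ))) := lt_min (by positivity) (by positivity)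
  obtain ⟨ρ2, hρ21, hρ22, hY⟩ := exists_stable Γ2 hr2pos
  have hρ2σ : ρ2 ≤ σ * ρ3 := hρ22.trans (min_le_left _ _)
  have hρ2n : ρ2 ≤ 1 / (2000 * (n0 : ℝ)) := hρ22.trans (min_le_right _ _)
  refine ⟨Γ2, ρ2, hY, ?_, ?_, (card_union_le _ _).trans (by omega), fun r hr => ?_⟩
  · refine hρ2n.trans ?_
    rw [div_le_one (by positivity)]
    linarith
  · have a2 : stab Dmax * ρ' / (2 * n0) ≤ ρ3 := by
      refine le_trans ?_ hρ31
      rw [div_div, mul_comm (n0 : ℝ) 2]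
      gcongr
    have hρ3le : ρ3 ≤ 1 := hρ32.trans (by
      rw [div_le_one hn0pos]
      calc σ * ρ' ≤ 1 * 1 := mul_le_mul (by linarith) hρ'1 hρ'pos.le (by norm_num)
        _ ≤ _ := by linarith)
    have hle : stab Dmax * ρ3 ≤ 1 := mul_le_one₀ (by linarith) hρ3pos.le hρ3le
    have a4 : stab Dmax * ρ3 / (4000 * n0) ≤ ρ2 := by
      refine le_trans ?_ hρ21
      rw [le_div_iff₀ (by norm_num : (0 : ℝ) < 2), le_min_iff, div_mul_eq_mul_div]
      constructor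
      · rw [div_le_iff₀ (by positivity)]
        calc stab Dmax * ρ3 * 2 ≤ σ * ρ3 * 2 := by gcongr
          _ ≤ _ := by gcongr; linarith
      · rw [div_le_div_iff₀ (by positivity) (by positivity)]
        calc stab Dmax * ρ3 * 2 * (2000 * n0) ≤ 1 * 2 * (2000 * n0) := by gcongr
          _ = _ := by ring
    calc stab Dmax ^ 2 * ρ' / (8000 * (n0 : ℝ) ^ 2) =
          stab Dmax * (stab Dmax * ρ' / (2 * n0)) / (4000 * n0) := by field_simp; ring
      _ ≤ stab Dmax * ρ3 / (4000 * n0) := by gcongr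
      _ ≤ ρ2 := a4
  set Y := bohr Γ2 ρ2 with hYdef
  have hde : ∀ y ∈ Y, de (r * y) ≤ 0.01 := by
    intro y hy
    have := hΛ r hr y (2 * Real.pi / (2000 * n0)) (4 * 0.001) (by norm_num) (fun l hl => ?_)
      (fun δ hδ => ?_) (by positivity)
    · refine this.trans ?_
      have e : (n0 : ℝ) * (2 * Real.pi / (2000 * n0)) = Real.pi / 1000 := by field_simp; ring
      rw [e]
      linarith [Real.pi_le_four]
    · refine (norm_eN_sub_one_le _).trans ?_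
      calc 2 * Real.pi * dist0 (l * y) ≤ 2 * Real.pi * (1 / (2000 * n0)) := by
            gcongr; exact (mem_bohr.1 hy l (mem_union_right _ hl)).trans hρ2n
        _ = _ := by ring
    · refine de_le_of_spec ⟨0, zero_mem_bohr hρ3pos.le⟩ (Tp := bohr Γ (ρ3 * (1 + σ))) ?_ ?_
        (fun t ht => ?_) hδ
      · exact bohr_mono subset_rfl (le_mul_of_one_le_right hρ3pos.le (by linarith))
      · norm_num at hρ3stab ⊢; exact hρ3stab
      · exact add_mem_bohr ht (bohr_mono subset_union_left hρ2σ hy) (by linarith)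
  have hYne : Y.Nonempty := ⟨0, zero_mem_bohr hY.1.le⟩
  have hYpos : (0 : ℝ) < #Y := by exact_mod_cast hYne.card_pos
  have h1 : ‖(∑ y ∈ Y, eN (r * y)) - (#Y : ℂ)‖ ≤ 0.01 * #Y := by
    rw [card_eq_sum_ones, Nat.cast_sum, Nat.cast_one, ← sum_sub_distrib, Nat.cast_sum,
      Nat.cast_one, mul_sum, mul_one]
    exact (norm_sum_le _ _).trans (sum_le_sum fun y hy => hde y hy)
  rw [muHat, norm_div, Complex.norm_natCast, le_div_iff₀ hYpos]
  have h2 := norm_sub_norm_le (#Y : ℂ) (∑ y ∈ Y, eN (r * y))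
  rw [norm_sub_rev, Complex.norm_natCast] at h2
  linarith

/-- From a good sifted set to a denser translate of a Bohr set of larger rank. -/
lemma spectral_increment {Γ : Finset (ZMod N)} {A B U : Finset (ZMod N)} {ℓ : ℕ} {ρT θ : ℝ}
    {Dmax : ℕ} (hstab : Stable Γ ρT) (hρT : ρT ≤ 1) (hDmax : #Γ + rankGain ℓ ≤ Dmax)
    (hA : A.Nonempty) (hθ : 0 ≤ θ) (hU : U.Nonempty) (hUT : U ⊆ bohr Γ ρT)
    (hUcard : (#(bohr Γ ρT) : ℝ) ≤ 2 ^ siftB ℓ * #U)
    (hbad : av U (fun y => if autoH A B y ≤ θ then 1 else 0) ≤ 0.02)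
    (havg : av U (autoH A B) ≤ 11 * θ) :
    ∃ Γ2 : Finset (ZMod N), ∃ ρ2 : ℝ, ∃ t : ZMod N, Stable Γ2 ρ2 ∧ ρ2 ≤ 1 ∧
      stab Dmax ^ 3 * ρT / (288000 * (rankGain ℓ : ℝ) ^ 2) ≤ ρ2 ∧ #Γ2 ≤ #Γ + rankGain ℓ ∧
      0.94 * θ * #(bohr Γ2 ρ2) ≤ (#B : ℝ) / #A * cnt A t (bohr Γ2 ρ2) := by
  classical
  obtain ⟨ρ', X, hst', hρ'le, hρ'ge, hXT, hXne, hbig, hav⟩ :=
    exists_dense_periods hstab hθ hU hUT hUcard hbad
  have hn1 := one_le_rankGain ℓ
  generalize rankGain ℓ = n0 at hDmax hbig hn1 ⊢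
  obtain ⟨Γ2, ρ2, hst2, hρ2le, hρ2ge, hΓ2, hspec⟩ :=
    exists_near_one hn1 hst' (hρ'le.trans hρT) (by omega : #Γ ≤ Dmax) hXT hXne hbig
  obtain ⟨t, -, ht⟩ := exists_max_image (univ : Finset (ZMod N))
    (fun t => cnt A t (bohr Γ2 ρ2)) univ_nonempty
  refine ⟨Γ2, ρ2, t, hst2, hρ2le, le_trans ?_ hρ2ge, hΓ2, ?_⟩
  · have hκ : stab Dmax ≤ stab #Γ := stab_anti (by omega)
    have hκpos : 0 < stab Dmax := stab_pos _
    have hρTpos := hstab.1
    calc stab Dmax ^ 3 * ρT / (288000 * (n0 : ℝ) ^ 2) =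
          stab Dmax ^ 2 * (stab Dmax * ρT / 36) / (8000 * (n0 : ℝ) ^ 2) := by field_simp; ring
      _ ≤ stab Dmax ^ 2 * (stab #Γ * ρT / 36) / (8000 * (n0 : ℝ) ^ 2) := by gcongr
      _ ≤ _ := by gcongr
  have h3 := fourier_transfer (A := A) (B := B) (U := U) (k := 8) hspec
  have hYne : (bohr Γ2 ρ2).Nonempty := ⟨0, zero_mem_bohr hst2.1.le⟩
  have h4 := av_shiftAvg_le (B := B) hA hU hYne (M := (cnt A t (bohr Γ2 ρ2) : ℝ))
    (fun s => Nat.cast_le.2 (ht s (mem_univ s)))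
  have hYpos : (0 : ℝ) < #(bohr Γ2 ρ2) := by exact_mod_cast hYne.card_pos
  have h5 := h3.trans h4
  rw [le_div_iff₀ hYpos] at h5
  refine le_trans ?_ h5
  refine mul_le_mul_of_nonneg_right ?_ hYpos.le
  have e : ((1 : ℝ) / 4) ^ 8 = 1 / 65536 := by norm_num
  rw [e]
  linarith

/-- The radius lost in one step. -/
noncomputable def loss (Dmax ℓ : ℕ) : ℝ :=
  stab Dmax ^ 5 / (5000000 * (rankGain ℓ : ℝ) ^ 2)

/-- Either one of two small translates is denser, or both densities are almost as large as `α`. -/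
lemma good_shift {A0 Γ : Finset (ZMod N)} {z : ZMod N} {α ρ ρ1 ρT : ℝ} (hα : 0 < α)
    (hst : Stable Γ ρ) (h1pos : 0 < ρ1) (hTpos' : 0 < ρT) (hρ1 : ρ1 ≤ stab #Γ * ρ)
    (hρT : 2 * ρT ≤ stab #Γ * ρ)
    (hdens : α * #(bohr Γ ρ) ≤ cnt A0 z (bohr Γ ρ)) :
    (∃ z', 1.001 * α * #(bohr Γ ρ1) ≤ (cnt A0 z' (bohr Γ ρ1) : ℝ)) ∨
    (∃ z', 1.001 * α * #(bohr Γ ρT) ≤ (cnt A0 z' (bohr Γ ρT) : ℝ)) ∨
    ∃ z', 0.997 * α * #(bohr Γ ρ1) ≤ (cnt A0 z' (bohr Γ ρ1) : ℝ) ∧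
      0.997 * α * (#(bohr Γ ρT) : ℝ) ^ 2 ≤
        (#((bohr Γ ρT ×ˢ bohr Γ ρT).filter fun p => z' + (p.1 - p.2) ∈ A0) : ℝ) := by
  classical
  obtain ⟨hρpos, hDst⟩ := hst
  have hσpos : 0 < stab #Γ := stab_pos _
  set D := bohr Γ ρ with hD
  set Dp := bohr Γ (ρ * (1 + stab #Γ)) with hDp
  set B1 := bohr Γ ρ1 with hB1
  set T := bohr Γ ρT with hT
  set AD := D.filter fun b => z + b ∈ A0 with hAD
  have hADcard : α * #D ≤ #AD := hdens
  have hB1pos : (0 : ℝ) < #B1 := by exact_mod_cast card_bohr_pos h1pos.le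
  have hTpos : (0 : ℝ) < #T := by exact_mod_cast card_bohr_pos hTpos'.le
  set f1 : ZMod N → ℝ := fun x => (#(B1.filter fun s => x + s ∈ AD) : ℝ) / #B1 with hf1
  set f2 : ZMod N → ℝ := fun x =>
    (#((T ×ˢ T).filter fun p => x + (p.1 - p.2) ∈ AD) : ℝ) / (#T : ℝ) ^ 2 with hf2
  have hs1 : α * #D ≤ ∑ x ∈ Dp, f1 x := by
    have := sum_translates AD Dp B1 (fun s => s) fun a ha s hs =>
      sub_mem_bohr (mem_filter.1 ha).1 hs (by linarith)
    simp only [hf1, ← sum_div]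
    rw [le_div_iff₀ hB1pos]
    exact le_trans (mul_le_mul_of_nonneg_right hADcard hB1pos.le) this
  have hs2 : α * #D ≤ ∑ x ∈ Dp, f2 x := by
    have := sum_translates AD Dp (T ×ˢ T) (fun p => p.1 - p.2) fun a ha p hp =>
      sub_mem_bohr (mem_filter.1 ha).1
        (sub_mem_bohr (mem_product.1 hp).1 (mem_product.1 hp).2 le_rfl) (by linarith)
    rw [card_product, Nat.cast_mul, ← sq] at this
    simp only [hf2, ← sum_div]
    rw [le_div_iff₀ (by positivity)]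
    exact le_trans (mul_le_mul_of_nonneg_right hADcard (by positivity)) this
  obtain ⟨x, -, hsum⟩ : ∃ x ∈ Dp, 2 * α * (1000 / 1001) ≤ f1 x + f2 x := by
    refine exists_le_of_sum_le ⟨0, zero_mem_bohr (by positivity)⟩ ?_
    rw [sum_const, nsmul_eq_mul, sum_add_distrib]
    have h1 : α * #Dp ≤ α * (1.001 * #D) := mul_le_mul_of_nonneg_left hDst hα.le
    linarith
  set z' := z + x with hz'
  have hmem : ∀ s, x + s ∈ AD → z' + s ∈ A0 := fun s hs => by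
    rw [hz', add_assoc]; exact (mem_filter.1 hs).2
  have hf1le : f1 x * #B1 ≤ cnt A0 z' B1 := by
    simp only [hf1, div_mul_cancel₀ _ hB1pos.ne', Nat.cast_le]
    exact card_le_card (monotone_filter_right _ fun s _ hs => hmem s hs)
  have hf2le : f2 x * (#T : ℝ) ^ 2 ≤
      (#((T ×ˢ T).filter fun p => z' + (p.1 - p.2) ∈ A0) : ℝ) := by
    simp only [hf2]
    rw [div_mul_cancel₀ _ (by positivity), Nat.cast_le]
    exact card_le_card (monotone_filter_right _ fun p _ hp => hmem _ hp)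
  by_cases hbig1 : 1.001 * α ≤ f1 x
  · exact Or.inl ⟨z', le_trans (mul_le_mul_of_nonneg_right hbig1 hB1pos.le) hf1le⟩
  by_cases hbig2 : 1.001 * α ≤ f2 x
  · refine Or.inr (Or.inl ?_)
    obtain ⟨v, -, hv⟩ : ∃ v ∈ T, 1.001 * α * #T ≤ (cnt A0 (z' - v) T : ℝ) := by
      refine exists_le_of_sum_le ⟨0, zero_mem_bohr hTpos'.le⟩ ?_
      rw [sum_const, nsmul_eq_mul]
      have := (mul_le_mul_of_nonneg_right hbig2 (show (0 : ℝ) ≤ (#T : ℝ) ^ 2 by positivity)).trans hf2le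
      refine le_trans (le_of_eq_of_le (by ring) this) (le_of_eq ?_)
      simp only [cnt, ← sum_boole, sum_product_right]
      refine sum_congr rfl fun v _ => sum_congr rfl fun u _ => ?_
      simp only [show z' - v + u = z' + (u - v) by abel]
    exact ⟨z' - v, hv⟩
  refine Or.inr (Or.inr ⟨z', le_trans ?_ hf1le, le_trans ?_ hf2le⟩)
  · exact mul_le_mul_of_nonneg_right (by linarith) hB1pos.le
  · exact mul_le_mul_of_nonneg_right (by linarith) (by positivity)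

/-- The main case of the step. -/
lemma main_case {A0 Γ : Finset (ZMod N)} {h z' : ZMod N} (h2 : h * 2 = 1) (hAP : NoAP A0)
    {ℓ Dmax : ℕ} (hℓ : 1 ≤ ℓ) {α ρ1 ρT : ℝ} (hαℓ : 2 ≤ α * 2 ^ ℓ) (hB1st : Stable Γ ρ1)
    (hTst : Stable Γ ρT) (hρT : ρT ≤ stab #Γ * ρ1 / 4) (hρTle : ρT ≤ 1)
    (hsmall : 2000 * 4 ^ ℓ ≤ (#(bohr Γ ρ1) : ℝ)) (hDmax : #Γ + rankGain ℓ ≤ Dmax)
    (hA1 : 0.997 * α * #(bohr Γ ρ1) ≤ (cnt A0 z' (bohr Γ ρ1) : ℝ))
    (hA2 : 0.997 * α * (#(bohr Γ ρT) : ℝ) ^ 2 ≤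
      (#((bohr Γ ρT ×ˢ bohr Γ ρT).filter fun p => z' + (p.1 - p.2) ∈ A0) : ℝ)) :
    ∃ Γ2 : Finset (ZMod N), ∃ ρ2 : ℝ, ∃ z2 : ZMod N, Stable Γ2 ρ2 ∧ ρ2 ≤ 1 ∧
      stab Dmax ^ 3 * ρT / (288000 * (rankGain ℓ : ℝ) ^ 2) ≤ ρ2 ∧ #Γ2 ≤ #Γ + rankGain ℓ ∧
      1.001 * α * #(bohr Γ2 ρ2) ≤ cnt A0 z2 (bohr Γ2 ρ2) := by
  classical
  have hρTpos := hTst.1
  have hρ1pos := hB1st.1
  have hσpos : 0 < stab #Γ := stab_pos _
  have hα0 : 0 < α := pos_of_mul_pos_left (lt_of_lt_of_le two_pos hαℓ) (by positivity)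
  set B1 := bohr Γ ρ1 with hB1
  set T := bohr Γ ρT with hT
  have hB1pos : (0 : ℝ) < #B1 := by exact_mod_cast card_bohr_pos hρ1pos.le
  set A := B1.filter fun b => z' + b ∈ A0 with hA
  set B := bohr Γ (ρ1 * (1 + stab #Γ)) with hB
  set Γh := Γ.image fun r => r * h with hΓh
  set Th := bohr Γh ρT with hTh
  have hdil : T.image (fun x => 2 * x) = Th := bohr_image_two h2 Γ ρT
  have hinj : Function.Injective fun x : ZMod N => 2 * x := fun a b hab => by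
    have := congrArg (fun w => h * w) hab
    simpa only [← mul_assoc, h2, one_mul] using this
  have hThcard : #Th = #T := by rw [← hdil, card_image_of_injective _ hinj]
  have hΓcard : #Γh = #Γ := card_image_of_injective _ fun a b hab => by
    have := congrArg (fun w => w * 2) hab
    simpa only [mul_assoc, h2, mul_one] using this
  have hThst : Stable Γh ρT := by
    refine ⟨hρTpos, ?_⟩
    rw [hΓcard, ← hTh, hThcard, hΓh, ← bohr_image_two h2, card_image_of_injective _ hinj]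
    exact hTst.2
  have hAcard : 0.997 * α * #B1 ≤ #A := hA1
  have hApos : (0 : ℝ) < #A := lt_of_lt_of_le (by positivity) hAcard
  have hAne : A.Nonempty := card_pos.1 (by exact_mod_cast hApos)
  have hAB : A ⊆ B := (filter_subset _ _).trans
    (bohr_mono subset_rfl (le_mul_of_one_le_right hρ1pos.le (by linarith)))
  have hBcard : (#B : ℝ) ≤ 1.001 * #B1 := hB1st.2
  have hsize : (#B : ℝ) ≤ 0.001 * (#A : ℝ) ^ 2 := by
    have h3 : (4 : ℝ) ≤ α ^ 2 * 4 ^ ℓ := by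
      have := pow_le_pow_left₀ (by norm_num) hαℓ 2
      rw [mul_pow, ← pow_mul, mul_comm ℓ 2, pow_mul] at this
      norm_num at this
      exact this
    have h4 : 8000 ≤ α ^ 2 * #B1 := by
      calc (8000 : ℝ) ≤ α ^ 2 * (2000 * 4 ^ ℓ) := by linarith
        _ ≤ _ := mul_le_mul_of_nonneg_left hsmall (by positivity)
    have h5 : (0.997 * α * #B1) ^ 2 ≤ (#A : ℝ) ^ 2 := pow_le_pow_left₀ (by positivity) hAcard 2
    have h6 := mul_le_mul_of_nonneg_right h4 hB1pos.le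
    linarith
  have hAD : (#B : ℝ) / #A ≤ 2 ^ ℓ := by
    rw [div_le_iff₀ hApos]
    have h3 := mul_le_mul_of_nonneg_left hAcard (show (0 : ℝ) ≤ 2 ^ ℓ by positivity)
    have h4 := mul_le_mul_of_nonneg_right hαℓ hB1pos.le
    linarith
  set C := (univ.filter fun b => z' + b ∈ A0).image fun b => 2 * b with hC
  have hCav : (1 : ℝ) / 2 ^ ℓ ≤ av Th (ind C) := by
    have h3 : 0.997 * α ≤ av Th (ind C) := by
      have hT0 : (0 : ℝ) < #T := by exact_mod_cast card_bohr_pos hρTpos.le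
      simp only [av, hThcard]
      rw [le_div_iff₀ (by positivity)]
      refine hA2.trans ?_
      simp only [ind, sum_boole, Nat.cast_le]
      refine card_le_card_of_injOn (fun p => (2 * p.1, 2 * p.2)) (fun p hp => ?_)
        (fun p _ p' _ h' => Prod.ext (hinj (congrArg Prod.fst h')) (hinj (congrArg Prod.snd h')))
      obtain ⟨h4, h5⟩ := mem_filter.1 hp
      obtain ⟨h6, h7⟩ := mem_product.1 h4
      refine mem_filter.2 ⟨mem_product.2 ⟨?_, ?_⟩, ?_⟩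
      · rw [← hdil]; exact mem_image_of_mem _ h6
      · rw [← hdil]; exact mem_image_of_mem _ h7
      · exact mem_image.2 ⟨p.1 - p.2, mem_filter.2 ⟨mem_univ _, h5⟩, mul_sub _ _ _⟩
    rw [div_le_iff₀ (by positivity)]
    have h4 := mul_le_mul_of_nonneg_right h3 (show (0 : ℝ) ≤ 2 ^ ℓ by positivity)
    linarith
  have hfew : ∀ y ∈ C, #(A.filter fun a => y - a ∈ A) ≤ 1 := by
    intro y hy
    obtain ⟨b, hb, rfl⟩ := mem_image.1 hy
    refine card_le_one.2 fun a ha a' ha' => ?_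
    have key : ∀ c ∈ A.filter (fun a => 2 * b - a ∈ A), c = b := fun c hc => by
      obtain ⟨h3, h4⟩ := mem_filter.1 hc
      have := hAP _ (mem_filter.1 h3).2 _ (mem_filter.1 hb).2 _ (mem_filter.1 h4).2 (by ring)
      exact add_left_cancel this
    rw [key a ha, key a' ha']
  obtain ⟨θ, U, hUT, hUne, hθ, hUcard, hU1, hU2⟩ := core (B := B) (T := Th) (C := C) hℓ hAne hAB
    (fun w hw => neg_mem_bohr hw) ⟨0, zero_mem_bohr hρTpos.le⟩ (fun w hw => neg_mem_bohr hw)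
    (fun a ha u hu v hv => add_mem_bohr (mem_filter.1 ha).1
      (sub_mem_bohr (bohr_half_subset h2 hu) (bohr_half_subset h2 hv) le_rfl) (by linarith))
    hsize hAD hCav hfew
  obtain ⟨Γ2, ρ2, t, hst2, hρ2le, hρ2, hΓ2, hfin⟩ := spectral_increment hThst hρTle
    (Dmax := Dmax) (by omega) hAne (by linarith) hUne hUT hUcard hU1 hU2
  refine ⟨Γ2, ρ2, z' + t, hst2, hρ2le, hρ2, by omega, ?_⟩
  have hmono : cnt A t (bohr Γ2 ρ2) ≤ cnt A0 (z' + t) (bohr Γ2 ρ2) := by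
    refine card_le_card fun b hb => ?_
    obtain ⟨h3, h4⟩ := mem_filter.1 hb
    exact mem_filter.2 ⟨h3, by rw [add_assoc]; exact (mem_filter.1 h4).2⟩
  rw [div_mul_eq_mul_div, le_div_iff₀ hApos] at hfin
  have h3 : (0 : ℝ) ≤ #(bohr Γ2 ρ2) := Nat.cast_nonneg _
  have h4 : 0.94 * 1.164 * #(bohr Γ2 ρ2) * (0.997 * α * #B1) ≤
      1.001 * #B1 * (cnt A0 (z' + t) (bohr Γ2 ρ2) : ℝ) := by
    refine le_trans (le_trans ?_ hfin) ?_
    · exact mul_le_mul (mul_le_mul_of_nonneg_right (by linarith) h3) hAcard (by positivity)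
        (mul_nonneg (by linarith) h3)
    · exact mul_le_mul hBcard (Nat.cast_le.2 hmono) (Nat.cast_nonneg _) (by positivity)
  refine le_of_mul_le_mul_left ?_ (show (0 : ℝ) < 1.001 * #B1 by positivity)
  refine le_trans ?_ h4
  have h5 : (0 : ℝ) ≤ #(bohr Γ2 ρ2) * (α * #B1) := by positivity
  linarith

/-- One step of the density increment. -/
lemma step {A0 Γ : Finset (ZMod N)} {h z : ZMod N} (h2 : h * 2 = 1) (hAP : NoAP A0) {ℓ Dmax : ℕ}
    (hℓ : 1 ≤ ℓ) {α ρ : ℝ} (hα : 2 / 2 ^ ℓ ≤ α) (hst : Stable Γ ρ) (hρ1 : ρ ≤ 1)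
    (hdens : α * #(bohr Γ ρ) ≤ cnt A0 z (bohr Γ ρ)) (hDmax : #Γ + rankGain ℓ ≤ Dmax) :
    (N : ℝ) * (stab Dmax * ρ / 4) ^ Dmax < 2000 * 4 ^ ℓ ∨
    ∃ Γ2 : Finset (ZMod N), ∃ ρ2 : ℝ, ∃ z2 : ZMod N, Stable Γ2 ρ2 ∧ ρ2 ≤ 1 ∧
      loss Dmax ℓ * ρ ≤ ρ2 ∧ #Γ2 ≤ #Γ + rankGain ℓ ∧
      1.001 * α * #(bohr Γ2 ρ2) ≤ cnt A0 z2 (bohr Γ2 ρ2) := by
  classical
  have hρpos := hst.1
  set σ := stab #Γ with hσ
  set κ := stab Dmax with hκ
  have hσpos : 0 < σ := stab_pos _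
  have hσle : σ ≤ 1 / 16000 := stab_le _
  have hκpos : 0 < κ := stab_pos _
  have hκσ : κ ≤ σ := stab_anti (by omega)
  have hαℓ : 2 ≤ α * 2 ^ ℓ := by rwa [div_le_iff₀ (by positivity)] at hα
  have hαpos : 0 < α := pos_of_mul_pos_left (lt_of_lt_of_le two_pos hαℓ) (by positivity)
  obtain ⟨ρ1, hρ11, hρ12, hB1st⟩ := exists_stable Γ (r := σ * ρ) (by positivity)
  have hρ1pos := hB1st.1
  obtain ⟨ρT, hρT1, hρT2, hTst⟩ := exists_stable Γ (r := σ * ρ1 / 4) (by positivity)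
  have hρTpos := hTst.1
  have hs1 : σ * ρ ≤ ρ := mul_le_of_le_one_left hρpos.le (by linarith)
  have hs2 : σ * ρ1 ≤ ρ1 := mul_le_of_le_one_left hρ1pos.le (by linarith)
  have hn1 := one_le_rankGain_real ℓ
  have hloss : loss Dmax ℓ * ρ ≤ κ ^ 3 * ρT / (288000 * (rankGain ℓ : ℝ) ^ 2) := by
    have a1 : κ * (κ * ρ / 2) / 8 ≤ ρT := by
      refine le_trans ?_ hρT1
      have : κ * (κ * ρ / 2) ≤ σ * ρ1 :=
        mul_le_mul hκσ (le_trans (by linarith [mul_le_mul_of_nonneg_right hκσ hρpos.le]) hρ11)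
          (by positivity) hσpos.le
      linarith
    rw [loss, ← hκ]
    generalize (rankGain ℓ : ℝ) = n0 at hn1 ⊢
    calc κ ^ 5 / (5000000 * n0 ^ 2) * ρ ≤ κ ^ 5 / (4608000 * n0 ^ 2) * ρ := by
          gcongr; norm_num
      _ = κ ^ 3 * (κ * (κ * ρ / 2) / 8) / (288000 * n0 ^ 2) := by field_simp; ring
      _ ≤ _ := by gcongr
  have hlossT : loss Dmax ℓ * ρ ≤ ρT := by
    refine hloss.trans ?_
    generalize (rankGain ℓ : ℝ) = n0 at hn1 ⊢
    have hk3 : κ ^ 3 ≤ 1 := pow_le_one₀ hκpos.le (by linarith)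
    have hn2 : 1 ≤ n0 ^ 2 := one_le_pow₀ hn1
    rw [div_le_iff₀ (by positivity), mul_comm]
    exact mul_le_mul_of_nonneg_left (by linarith) hρTpos.le
  have hTρ1 : ρT ≤ ρ1 := by linarith
  by_cases hsmall : (#(bohr Γ ρ1) : ℝ) < 2000 * 4 ^ ℓ
  · left
    have h1 := card_bohr_lower Γ hρ1pos (by linarith : ρ1 ≤ 1)
    refine lt_of_le_of_lt (le_trans (mul_le_mul_of_nonneg_left ?_ (Nat.cast_nonneg N)) h1) hsmall
    calc (κ * ρ / 4) ^ Dmax ≤ (κ * ρ / 4) ^ #Γ :=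
          pow_le_pow_of_le_one (by positivity)
            (by linarith [mul_le_mul_of_nonneg_right hκσ hρpos.le]) (by omega)
      _ ≤ _ := pow_le_pow_left₀ (by positivity)
          (by linarith [mul_le_mul_of_nonneg_right hκσ hρpos.le]) _
  rw [not_lt] at hsmall
  right
  rcases good_shift (ρ1 := ρ1) (ρT := ρT) hαpos hst hρ1pos hρTpos hρ12 (by linarith) hdens with
    ⟨z', hz⟩ | ⟨z', hz⟩ | ⟨z', hA1, hA2⟩
  · exact ⟨Γ, ρ1, z', hB1st, by linarith, hlossT.trans hTρ1, by omega, hz⟩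
  · exact ⟨Γ, ρT, z', hTst, by linarith, hlossT, by omega, hz⟩
  · obtain ⟨Γ2, ρ2, z2, h3, h4, h5, h6, h7⟩ :=
      main_case h2 hAP hℓ hαℓ hB1st hTst hρT2 (by linarith) hsmall hDmax hA1 hA2
    exact ⟨Γ2, ρ2, z2, h3, h4, hloss.trans h5, h6, h7⟩

end Vale.Agent.P057.Sixth
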