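import Vale.Agent.P057.Main
import Vale.Agent.P057.Sixth.Step

/-!
# Iteration and the bound `r₃(N) ≪ N exp (-c (log N / log log N)^(1/6))`
-/

namespace Vale.Agent.P057.Sixth

open Finset Filter

variable {N : ℕ} [NeZero N]

lemma loss_pos (Dmax ℓ : ℕ) : 0 < loss Dmax ℓ := by
  have h := one_le_rankGain_real ℓ
  have := stab_pos Dmax
  unfold loss
  positivity

lemma loss_le_one (Dmax ℓ : ℕ) : loss Dmax ℓ ≤ 1 := by
  have h := one_le_rankGain_real ℓ
  have hs := stab_le Dmax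
  have hp := stab_pos Dmax
  have h2 : stab Dmax ^ 5 ≤ 1 := pow_le_one₀ hp.le (by linarith)
  have h3 : 1 ≤ (rankGain ℓ : ℝ) ^ 2 := one_le_pow₀ h
  unfold loss
  rw [div_le_one (by positivity)]
  linarith

/-- The iteration. -/
lemma iterate_step {A : Finset (ZMod N)} {h : ZMod N} (h2 : h * 2 = 1) (hAP : NoAP A) {ℓ Dmax : ℕ}
    (hℓ : 1 ≤ ℓ) :
    ∀ (n : ℕ) (Γ : Finset (ZMod N)) (ρ α : ℝ) (z : ZMod N), Stable Γ ρ → ρ ≤ 1 →
      2 / 2 ^ ℓ ≤ α → α * #(bohr Γ ρ) ≤ cnt A z (bohr Γ ρ) → 1 < α * 1.001 ^ n →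
      #Γ + n * rankGain ℓ ≤ Dmax →
      (N : ℝ) * (stab Dmax * (loss Dmax ℓ ^ n * ρ) / 4) ^ Dmax < 2000 * 4 ^ ℓ := by
  intro n
  induction n with
  | zero =>
    intro Γ ρ α z hst _ _ hdens h1 _
    exfalso
    have hpos : (0 : ℝ) < #(bohr Γ ρ) := by exact_mod_cast card_bohr_pos hst.1.le
    have hle : (cnt A z (bohr Γ ρ) : ℝ) ≤ 1 * #(bohr Γ ρ) := by
      rw [one_mul]; exact_mod_cast card_filter_le _ _
    have := le_of_mul_le_mul_right (hdens.trans hle) hpos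
    rw [pow_zero, mul_one] at h1
    linarith
  | succ n ih =>
    intro Γ ρ α z hst hρ hα hdens h1 hD
    rw [Nat.succ_mul] at hD
    have hκ := stab_pos Dmax
    have hl := loss_pos Dmax ℓ
    have hρ0 := hst.1
    rcases step h2 hAP hℓ hα hst hρ hdens (Dmax := Dmax) (by omega) with hend |
      ⟨Γ2, ρ2, z2, hst2, hρ2, hloss, hcard, hdens2⟩
    · refine lt_of_le_of_lt (mul_le_mul_of_nonneg_left (pow_le_pow_left₀ (by positivity) ?_ _)
        (Nat.cast_nonneg N)) hend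
      refine div_le_div_of_nonneg_right (mul_le_mul_of_nonneg_left ?_ hκ.le) (by norm_num)
      exact mul_le_of_le_one_left hρ0.le (pow_le_one₀ hl.le (loss_le_one _ _))
    · have hα0 : 0 ≤ α := le_trans (by positivity) hα
      have := ih Γ2 ρ2 (1.001 * α) z2 hst2 hρ2 (hα.trans (le_mul_of_one_le_left hα0 (by norm_num)))
        hdens2 (lt_of_lt_of_eq h1 (by ring)) (by omega)
      refine lt_of_le_of_lt (mul_le_mul_of_nonneg_left (pow_le_pow_left₀ (by positivity) ?_ _)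
        (Nat.cast_nonneg N)) this
      refine div_le_div_of_nonneg_right (mul_le_mul_of_nonneg_left ?_ hκ.le) (by norm_num)
      rw [pow_succ, mul_assoc]
      exact mul_le_mul_of_nonneg_left hloss (by positivity)

/-- The explicit consequence of the iteration for one set. -/
lemma main_ineq {A : Finset (ZMod N)} {h : ZMod N} (h2 : h * 2 = 1) (hAP : NoAP A) {ℓ : ℕ}
    (hℓ : 1 ≤ ℓ) (hA : 2 * (N : ℝ) ≤ #A * 2 ^ ℓ) :
    (N : ℝ) * (stab (1000 * ℓ * rankGain ℓ) * loss (1000 * ℓ * rankGain ℓ) ℓ ^ (1000 * ℓ) / 4) ^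
      (1000 * ℓ * rankGain ℓ) < 2000 * 4 ^ ℓ := by
  classical
  have hN : (0 : ℝ) < N := by exact_mod_cast NeZero.pos N
  have hst : Stable (∅ : Finset (ZMod N)) 1 := by
    refine ⟨one_pos, ?_⟩
    rw [bohr_empty, bohr_empty]
    exact le_mul_of_one_le_left (Nat.cast_nonneg _) (by norm_num)
  have hα : (2 : ℝ) / 2 ^ ℓ ≤ #A / N := by
    rw [div_le_div_iff₀ (by positivity) hN]
    linarith
  have hcnt : (#A : ℝ) / N * #(bohr (∅ : Finset (ZMod N)) 1) ≤ cnt A 0 (bohr ∅ 1) := by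
    rw [bohr_empty, card_univ, ZMod.card, div_mul_cancel₀ _ hN.ne', cnt]
    simp
  have h1 : (1 : ℝ) < #A / N * 1.001 ^ (1000 * ℓ) := by
    have hb : (2 : ℝ) ^ ℓ ≤ 1.001 ^ (1000 * ℓ) := by
      rw [pow_mul]
      refine pow_le_pow_left₀ (by norm_num) ?_ _
      rw [show (1.001 : ℝ) = 1 + 0.001 by norm_num]
      exact le_trans (by norm_num)
        (one_add_mul_le_pow (show (-2 : ℝ) ≤ 0.001 by norm_num) 1000)
    calc (1 : ℝ) < 2 / 2 ^ ℓ * 2 ^ ℓ := by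
          rw [div_mul_cancel₀ _ (by positivity)]; norm_num
      _ ≤ _ := mul_le_mul hα hb (by positivity) (by positivity)
  have := iterate_step (Dmax := 1000 * ℓ * rankGain ℓ) h2 hAP hℓ (1000 * ℓ) ∅ 1 (#A / N) 0 hst
    le_rfl hα hcnt h1 (by simp)
  simpa using this

/-- `log N ≪ ℓ⁶ log (ℓ + 1)` when a progression-free set has density at least `2 / 2 ^ ℓ`. -/
theorem log_le_of_dense : ∃ K : ℝ, 0 < K ∧ ∀ (N : ℕ) [NeZero N] (h : ZMod N), h * 2 = 1 →
    ∀ A : Finset (ZMod N), NoAP A → ∀ ℓ : ℕ, 1 ≤ ℓ → 2 * (N : ℝ) ≤ #A * 2 ^ ℓ →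
      Real.log N ≤ K * (ℓ : ℝ) ^ 6 * Real.log (ℓ + 1) := by
  obtain ⟨Cg, hCg, hgain⟩ : ∃ Cg : ℝ, 1 ≤ Cg ∧ ∀ ℓ : ℕ, 1 ≤ ℓ →
      (rankGain ℓ : ℝ) ≤ Cg * (ℓ : ℝ) ^ 4 := by
    obtain ⟨C, hC⟩ : ∃ C : ℕ, ∀ ℓ : ℕ, 1 ≤ ℓ → rankGain ℓ ≤ C * ℓ ^ 4 :=
      ⟨_, fun ℓ hℓ => rankGain_le hℓ⟩
    refine ⟨(C : ℝ) + 1, by linarith [(Nat.cast_nonneg C : (0 : ℝ) ≤ C)], fun ℓ hℓ => ?_⟩
    have h1 : (rankGain ℓ : ℝ) ≤ (C : ℝ) * (ℓ : ℝ) ^ 4 := by exact_mod_cast hC ℓ hℓ
    have h2 : (0 : ℝ) ≤ (ℓ : ℝ) ^ 4 := by positivity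
    linarith
  have hlog2 : 0 < Real.log 2 := Real.log_pos (by norm_num)
  set a : ℝ := 16000000 * (Cg + 1) + 5000000 * Cg ^ 2 + 4 with ha
  have ha1 : 1 ≤ a := by rw [ha]; nlinarith
  have hla : 0 ≤ Real.log a := Real.log_nonneg ha1
  set b : ℝ := Real.log a / Real.log 2 + 10 with hb
  refine ⟨6002000 * Cg * b + Real.log 2000 / Real.log 2 + 2 * Real.log 4 / Real.log 2 + 1,
    by positivity, fun N _ h h2 A hAP ℓ hℓ hA => ?_⟩
  have hmain := main_ineq h2 hAP hℓ hA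
  have hN : (0 : ℝ) < N := by exact_mod_cast NeZero.pos N
  have hg := hgain ℓ hℓ
  have hg1 := one_le_rankGain_real ℓ
  set D := 1000 * ℓ * rankGain ℓ with hD
  set n := 1000 * ℓ with hn
  set g := (rankGain ℓ : ℝ) with hgdef
  have hDR : (D : ℝ) = 1000 * ℓ * g := by rw [hD, hn, hgdef]; push_cast; ring
  have hℓR : (1 : ℝ) ≤ ℓ := by exact_mod_cast hℓ
  set X : ℝ := a * (ℓ : ℝ) ^ 10 with hX
  have hl10 : (1 : ℝ) ≤ (ℓ : ℝ) ^ 10 := one_le_pow₀ hℓR
  have hX1 : 1 ≤ X := one_le_mul_of_one_le_of_one_le ha1 hl10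
  have hX4 : 4 ≤ X := by
    rw [hX]; nlinarith
  have hD1 : (D : ℝ) + 1 ≤ 1000 * (Cg + 1) * (ℓ : ℝ) ^ 10 := by
    have h5 : (ℓ : ℝ) ^ 5 ≤ (ℓ : ℝ) ^ 10 := pow_le_pow_right₀ hℓR (by norm_num)
    have h6 : 1000 * (ℓ : ℝ) * g ≤ 1000 * (ℓ : ℝ) * (Cg * (ℓ : ℝ) ^ 4) := by gcongr
    have h7 : 1000 * Cg * (ℓ : ℝ) ^ 5 ≤ 1000 * Cg * (ℓ : ℝ) ^ 10 := by gcongr
    rw [hDR]
    linarith
  have hXs : 16000 * ((D : ℝ) + 1) ≤ X := by
    rw [hX, ha]
    have : (0 : ℝ) ≤ (5000000 * Cg ^ 2 + 4) * (ℓ : ℝ) ^ 10 := by positivity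
    linarith
  have hXg : 5000000 * g ^ 2 ≤ X := by
    have h8 : g ^ 2 ≤ (Cg * (ℓ : ℝ) ^ 4) ^ 2 := pow_le_pow_left₀ (by linarith) hg 2
    have h9 : (ℓ : ℝ) ^ 8 ≤ (ℓ : ℝ) ^ 10 := pow_le_pow_right₀ hℓR (by norm_num)
    have h10 : Cg ^ 2 * (ℓ : ℝ) ^ 8 ≤ Cg ^ 2 * (ℓ : ℝ) ^ 10 := by gcongr
    have h11 : (0 : ℝ) ≤ (16000000 * (Cg + 1) + 4) * (ℓ : ℝ) ^ 10 := by positivity
    rw [hX, ha]
    rw [mul_pow, ← pow_mul] at h8
    norm_num at h8
    linarith
  have hbase : 1 / X ^ (6 * n + 2) ≤ stab D * loss D ℓ ^ n / 4 := by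
    have hs : 1 / X ≤ stab D := by
      rw [stab]; exact one_div_le_one_div_of_le (by positivity) hXs
    have hl : 1 / X ^ 6 ≤ loss D ℓ := by
      rw [loss, ← hgdef]
      calc 1 / X ^ 6 = (1 / X) ^ 5 / X := by rw [div_pow, one_pow, div_div, ← pow_succ]
        _ ≤ _ := div_le_div₀ (pow_nonneg (stab_pos D).le 5)
            (pow_le_pow_left₀ (by positivity) hs 5) (by positivity) hXg
    have h4 : 1 / X ≤ 1 / 4 := one_div_le_one_div_of_le (by norm_num) hX4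
    have hXp : 0 < X := by linarith
    calc 1 / X ^ (6 * n + 2) = 1 / X * (1 / X ^ 6) ^ n * (1 / X) := by
          rw [div_pow, one_pow, ← pow_mul, pow_add]; field_simp
      _ ≤ stab D * loss D ℓ ^ n * (1 / 4) := by
          refine mul_le_mul (mul_le_mul hs (pow_le_pow_left₀ (by positivity) hl _) (by positivity)
            (stab_pos D).le) h4 (by positivity)
            (mul_nonneg (stab_pos D).le (pow_nonneg (loss_pos D ℓ).le _))
      _ = _ := by ring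
  have hXp : (0 : ℝ) < X := by linarith
  have hN2 : (N : ℝ) ≤ 2000 * 4 ^ ℓ * X ^ ((6 * n + 2) * D) := by
    have h3 : (N : ℝ) * (1 / X ^ (6 * n + 2)) ^ D ≤ 2000 * 4 ^ ℓ :=
      le_trans (mul_le_mul_of_nonneg_left (pow_le_pow_left₀ (by positivity) hbase _) hN.le) hmain.le
    rw [div_pow, one_pow, ← pow_mul, mul_one_div, div_le_iff₀ (by positivity)] at h3
    exact h3
  have hlogN := Real.log_le_log hN hN2
  rw [Real.log_mul (by positivity) (by positivity), Real.log_mul (by norm_num) (by positivity),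
    Real.log_pow, Real.log_pow, hX, Real.log_mul (by positivity) (by positivity), Real.log_pow,
    Nat.cast_mul, Nat.cast_add, Nat.cast_mul, hn, Nat.cast_mul, hDR] at hlogN
  push_cast at hlogN
  set lg := Real.log ((ℓ : ℝ) + 1) with hlg
  have hlg2 : Real.log 2 ≤ lg := Real.log_le_log (by norm_num) (by linarith)
  have hlgℓ : Real.log ℓ ≤ lg := Real.log_le_log (by linarith) (by linarith)
  have hlg0 : 0 ≤ lg := hlog2.le.trans hlg2
  have hl0 : 0 ≤ Real.log ℓ := Real.log_nonneg hℓR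
  have hb1 : Real.log a + 10 * Real.log ℓ ≤ b * lg := by
    have : Real.log a / Real.log 2 * Real.log 2 ≤ Real.log a / Real.log 2 * lg :=
      mul_le_mul_of_nonneg_left hlg2 (by positivity)
    rw [div_mul_cancel₀ _ hlog2.ne'] at this
    rw [hb, add_mul]
    linarith
  have hb0 : 0 ≤ b := by positivity
  have hl6 : (ℓ : ℝ) ≤ (ℓ : ℝ) ^ 6 := le_self_pow₀ hℓR (by norm_num)
  have hl61 : (1 : ℝ) ≤ (ℓ : ℝ) ^ 6 := one_le_pow₀ hℓR
  have p1 : (6 * (1000 * (ℓ : ℝ)) + 2) * (1000 * ℓ * g) * (Real.log a + 10 * Real.log ℓ) ≤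
      6002000 * Cg * (ℓ : ℝ) ^ 6 * (b * lg) := by
    refine mul_le_mul ?_ hb1 (by linarith) (by positivity)
    calc (6 * (1000 * (ℓ : ℝ)) + 2) * (1000 * ℓ * g) ≤
          (6002 * ℓ) * (1000 * ℓ * (Cg * (ℓ : ℝ) ^ 4)) := by gcongr; linarith
      _ = _ := by ring
  have p2 : Real.log 2000 ≤ Real.log 2000 / Real.log 2 * (ℓ : ℝ) ^ 6 * lg := by
    have h0 : 0 ≤ Real.log 2000 := Real.log_nonneg (by norm_num)
    calc Real.log 2000 = Real.log 2000 / Real.log 2 * 1 * Real.log 2 := by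
          rw [mul_one, div_mul_cancel₀ _ hlog2.ne']
      _ ≤ _ := by gcongr
  have p3 : (ℓ : ℝ) * Real.log 4 ≤ 2 * Real.log 4 / Real.log 2 * (ℓ : ℝ) ^ 6 * lg := by
    have h0 : 0 ≤ Real.log 4 := Real.log_nonneg (by norm_num)
    calc (ℓ : ℝ) * Real.log 4 = Real.log 4 / Real.log 2 * ℓ * Real.log 2 := by field_simp
      _ ≤ 2 * Real.log 4 / Real.log 2 * (ℓ : ℝ) ^ 6 * lg := by
          gcongr; linarith
  have p4 : 0 ≤ (ℓ : ℝ) ^ 6 * lg := by positivity
  linarith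

/-- A progression-free set of integers in an interval, viewed modulo a large prime. -/
lemma exists_modular {M : ℕ} (hM : 1 ≤ M) :
    ∃ (N : ℕ) (_ : NeZero N) (h : ZMod N) (A : Finset (ZMod N)), M ≤ N ∧ N ≤ 4 * M ∧ h * 2 = 1 ∧
      NoAP A ∧ #A = r 3 M := by
  classical
  obtain ⟨N, hp, hlt, hle⟩ := Nat.exists_prime_lt_and_le_two_mul (2 * M) (by omega)
  have hN : NeZero N := ⟨hp.ne_zero⟩
  obtain ⟨S, hS, hScard⟩ : ∃ S ∈ ((Icc 1 M).powerset.filter fun A => ¬ HasAP 3 A),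
      r 3 M = #S := by
    have hne : ((Icc 1 M).powerset.filter fun A => ¬ HasAP 3 A).Nonempty :=
      ⟨∅, mem_filter.2 ⟨empty_mem_powerset _, fun ⟨a, d, _, hj⟩ => by simpa using hj 0 (by norm_num)⟩⟩
    exact exists_mem_eq_sup _ hne card
  obtain ⟨hSsub, hSAP⟩ := mem_filter.1 hS
  rw [mem_powerset] at hSsub
  have hcop : Nat.Coprime 2 N := by
    refine (Nat.coprime_primes Nat.prime_two hp).2 ?_
    omega
  refine ⟨N, hN, ((ZMod.unitOfCoprime 2 hcop)⁻¹ : (ZMod N)ˣ), S.image (Nat.cast : ℕ → ZMod N),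
    by omega, by omega, ?_, ?_, ?_⟩
  · exact Units.inv_mul (ZMod.unitOfCoprime 2 hcop)
  · intro a ha b hb c hc habc
    obtain ⟨x, hx, rfl⟩ := mem_image.1 ha
    obtain ⟨y, hy, rfl⟩ := mem_image.1 hb
    obtain ⟨w, hw, rfl⟩ := mem_image.1 hc
    have hxM := mem_Icc.1 (hSsub hx)
    have hyM := mem_Icc.1 (hSsub hy)
    have hwM := mem_Icc.1 (hSsub hw)
    have e : ((x + w : ℕ) : ZMod N) = ((2 * y : ℕ) : ZMod N) := by push_cast; exact habc
    rw [ZMod.natCast_eq_natCast_iff', Nat.mod_eq_of_lt (by omega), Nat.mod_eq_of_lt (by omega)] at e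
    by_contra hne
    have hxy : x ≠ y := fun h => hne (by rw [h])
    apply hSAP
    rcases lt_or_gt_of_ne hxy with h | h
    · refine ⟨x, y - x, by omega, fun j hj => ?_⟩
      interval_cases j
      · simpa using hx
      · convert hy using 1; omega
      · convert hw using 1; omega
    · refine ⟨w, y - w, by omega, fun j hj => ?_⟩
      interval_cases j
      · simpa using hw
      · convert hy using 1; omega
      · convert hx using 1; omega
  · rw [hScard]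
    refine card_image_of_injOn fun x hx y hy he => ?_
    have hxM := mem_Icc.1 (hSsub hx)
    have hyM := mem_Icc.1 (hSsub hy)
    rwa [ZMod.natCast_eq_natCast_iff', Nat.mod_eq_of_lt (by omega), Nat.mod_eq_of_lt (by omega)] at he

/-- **The bound.** -/
theorem r_three_le : ∃ c : ℝ, 0 < c ∧ ∀ᶠ M : ℕ in atTop,
    (r 3 M : ℝ) ≤ M * Real.exp (-c * (Real.log M / Real.log (Real.log M)) ^ ((1 : ℝ) / 6)) := by
  obtain ⟨K, hK, hlog⟩ := log_le_of_dense
  set c₀ : ℝ := 1 / (1 + 129 * K) with hc₀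
  have hc₀pos : 0 < c₀ := by positivity
  have hc₀1 : c₀ ≤ 1 := by
    rw [hc₀, div_le_one (by positivity)]; linarith
  have hlog2 : 0 < Real.log 2 := Real.log_pos (by norm_num)
  refine ⟨Real.log 2 * c₀ / 2, by positivity, ?_⟩
  have hY : Tendsto (fun M : ℕ => Real.log (Real.log (M : ℝ))) atTop atTop :=
    Real.tendsto_log_atTop.comp (Real.tendsto_log_atTop.comp tendsto_natCast_atTop_atTop)
  have hL : Tendsto (fun M : ℕ => Real.log (M : ℝ)) atTop atTop :=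
    Real.tendsto_log_atTop.comp tendsto_natCast_atTop_atTop
  have hq : Tendsto (fun M : ℕ => Real.log (M : ℝ) / Real.log (Real.log (M : ℝ))) atTop atTop := by
    have h0 : Tendsto (fun x : ℝ => x / Real.log x) atTop atTop := by
      have h1 : Tendsto (fun x : ℝ => Real.log x / x) atTop (nhdsWithin 0 (Set.Ioi 0)) := by
        refine tendsto_nhdsWithin_iff.2 ⟨?_, ?_⟩
        · exact Real.isLittleO_log_id_atTop.tendsto_div_nhds_zero
        · filter_upwards [eventually_gt_atTop 1] with x hx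
          exact div_pos (Real.log_pos hx) (by linarith)
      refine h1.inv_tendsto_nhdsGT_zero.congr fun x => ?_
      simp [Pi.inv_apply, inv_div]
    exact h0.comp hL
  have hT : Tendsto (fun M : ℕ =>
      c₀ * (Real.log (M : ℝ) / Real.log (Real.log (M : ℝ))) ^ ((1 : ℝ) / 6)) atTop atTop :=
    ((tendsto_rpow_atTop (by norm_num)).comp hq).const_mul_atTop hc₀pos
  filter_upwards [hT.eventually_ge_atTop (max 1 (6 / Real.log 2)),
    hY.eventually_ge_atTop (max 1 (Real.log 3)), eventually_ge_atTop 2, hq.eventually_ge_atTop 1]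
    with M hTM hYM hM hqM
  set lM := Real.log (M : ℝ) with hlMdef
  set llM := Real.log lM with hllMdef
  set x := lM / llM with hx
  set T := c₀ * x ^ ((1 : ℝ) / 6) with hTdef
  have hT1 : 1 ≤ T := le_trans (le_max_left _ _) hTM
  have hll1 : 1 ≤ llM := le_trans (le_max_left _ _) hYM
  have hMR : (1 : ℝ) < M := by exact_mod_cast hM
  have hlM : 0 < lM := Real.log_pos hMR
  have hxle : x ≤ lM := div_le_self hlM.le hll1
  have hx6 : x ^ ((1 : ℝ) / 6) ≤ lM := le_trans (Real.rpow_le_self_of_one_le hqM (by norm_num)) hxle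
  have hT6 : T ^ 6 = c₀ ^ 6 * x := by
    rw [hTdef, mul_pow, one_div]
    congr 1
    exact Real.rpow_inv_natCast_pow (n := 6) (by linarith) (by norm_num)
  set ℓ := ⌈T⌉₊ with hℓdef
  have hℓT : T ≤ ℓ := Nat.le_ceil T
  have hℓ2 : (ℓ : ℝ) ≤ 2 * T := by
    have := Nat.ceil_lt_add_one (show (0 : ℝ) ≤ T by linarith)
    linarith
  have hℓ1 : 1 ≤ ℓ := Nat.one_le_ceil_iff.2 (by linarith)
  obtain ⟨N, hN, h, A, hMN, hN4, h2, hAP, hcard⟩ := exists_modular (show 1 ≤ M by omega)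
  have hNM : (M : ℝ) ≤ N := by exact_mod_cast hMN
  have hN4R : (N : ℝ) ≤ 4 * M := by exact_mod_cast hN4
  have hsmall : (#A : ℝ) * 2 ^ ℓ < 2 * N := by
    by_contra hcon
    have h1 := hlog N h h2 A hAP ℓ hℓ1 (not_lt.1 hcon)
    have h2' : lM ≤ Real.log N := Real.log_le_log (by linarith) hNM
    have h3 : Real.log ((ℓ : ℝ) + 1) ≤ 2 * llM := by
      have hTl : T ≤ lM := le_trans (mul_le_of_le_one_left (by positivity) hc₀1) hx6
      calc Real.log ((ℓ : ℝ) + 1) ≤ Real.log (3 * lM) :=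
            Real.log_le_log (by positivity) (by linarith)
        _ = Real.log 3 + llM := Real.log_mul (by norm_num) hlM.ne'
        _ ≤ _ := by linarith [le_trans (le_max_right _ _) hYM]
    have h4 : K * (ℓ : ℝ) ^ 6 * Real.log ((ℓ : ℝ) + 1) ≤ K * (2 * T) ^ 6 * (2 * llM) := by
      refine mul_le_mul (mul_le_mul_of_nonneg_left
        (pow_le_pow_left₀ (Nat.cast_nonneg _) hℓ2 6) hK.le) h3
        (Real.log_nonneg (by linarith [(Nat.cast_nonneg ℓ : (0 : ℝ) ≤ ℓ)])) (by positivity)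
    have h5 : K * (2 * T) ^ 6 * (2 * llM) = 128 * K * c₀ ^ 6 * lM := by
      rw [mul_pow, hT6, hx]
      field_simp
      ring
    have h6 : 128 * K * c₀ ^ 6 < 1 := by
      have : c₀ ^ 6 ≤ c₀ := pow_le_of_le_one hc₀pos.le hc₀1 (by norm_num)
      have h7 : 128 * K * c₀ < 1 := by
        rw [hc₀, mul_one_div, div_lt_one (by positivity)]; linarith
      exact lt_of_le_of_lt (mul_le_mul_of_nonneg_left this (by positivity)) h7
    have h7 : 128 * K * c₀ ^ 6 * lM < 1 * lM := mul_lt_mul_of_pos_right h6 hlM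
    linarith
  rw [← hcard]
  have h2l : Real.exp (Real.log 2 * T) ≤ (2 : ℝ) ^ ℓ := by
    rw [← Real.rpow_natCast, Real.rpow_def_of_pos (by norm_num)]
    exact Real.exp_le_exp.2 (mul_le_mul_of_nonneg_left hℓT hlog2.le)
  have h8 : (8 : ℝ) ≤ Real.exp (Real.log 2 * T / 2) := by
    have h9 : 3 ≤ Real.log 2 * T / 2 := by
      have h10 := le_trans (le_max_right _ _) hTM
      rw [div_le_iff₀ hlog2] at h10
      linarith
    refine le_trans ?_ (Real.exp_le_exp.2 h9)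
    rw [show (3 : ℝ) = ((3 : ℕ) : ℝ) * 1 by norm_num, Real.exp_nat_mul]
    refine le_trans (by norm_num) (pow_le_pow_left₀ (by norm_num)
      (show (2 : ℝ) ≤ Real.exp 1 by linarith [Real.exp_one_gt_d9]) 3)
  have he : -(Real.log 2 * c₀ / 2) * x ^ ((1 : ℝ) / 6) = -(Real.log 2 * T / 2) := by
    rw [hTdef]; ring
  rw [he, Real.exp_neg, ← div_eq_mul_inv, le_div_iff₀ (Real.exp_pos _)]
  have h11 : Real.exp (Real.log 2 * T / 2) * Real.exp (Real.log 2 * T / 2) =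
      Real.exp (Real.log 2 * T) := by rw [← Real.exp_add]; ring_nf
  have hA0 : (0 : ℝ) ≤ #A := Nat.cast_nonneg _
  refine le_of_mul_le_mul_right ?_ (Real.exp_pos (Real.log 2 * T / 2))
  calc (#A : ℝ) * Real.exp (Real.log 2 * T / 2) * Real.exp (Real.log 2 * T / 2)
      = #A * Real.exp (Real.log 2 * T) := by rw [mul_assoc, h11]
    _ ≤ #A * 2 ^ ℓ := mul_le_mul_of_nonneg_left h2l hA0
    _ ≤ 2 * N := hsmall.le
    _ ≤ (M : ℝ) * 8 := by linarith
    _ ≤ _ := mul_le_mul_of_nonneg_left h8 (by linarith)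

end Vale.Agent.P057.Sixth
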