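import Vale.Agent.P057.Sixth.Positivity

/-!
# Almost-periodicity of one convolution by sampling
-/

namespace Vale.Agent.P057.Sixth

open Finset

set_option linter.unusedSectionVars false

/-- Marcinkiewicz–Zygmund for bounded mean-zero samples, by counting index tuples. -/
lemma sampling_moment {G : Type*} [DecidableEq G] {U : Finset G} {Y : G → ℝ}
    (hY : ∀ v ∈ U, |Y v| ≤ 1) (hmean : ∑ v ∈ U, Y v = 0) {m q : ℕ} (hqm : q ≤ m) :
    ∑ v ∈ Fintype.piFinset (fun _ : Fin m => U), (∑ i, Y (v i)) ^ (2 * q) ≤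
      (#U : ℝ) ^ m * (Real.exp 1 * q * m) ^ q := by
  classical
  simp only [Fintype.sum_pow]
  rw [sum_comm]
  set c : (Fin (2 * q) → Fin m) → Fin m → ℕ := fun j i => #(univ.filter fun k => j k = i) with hc
  have hterm : ∀ j : Fin (2 * q) → Fin m,
      ∑ v ∈ Fintype.piFinset (fun _ : Fin m => U), ∏ k, Y (v (j k)) =
        ∏ i, ∑ x ∈ U, Y x ^ c j i := by
    intro j
    rw [prod_univ_sum]
    refine sum_congr rfl fun v _ => ?_
    rw [← prod_fiberwise' univ j fun i => Y (v i)]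
    simp only [prod_const, hc]
  set J := (univ : Finset (Fin (2 * q) → Fin m)).filter fun j => ∀ i, c j i ≠ 1 with hJ
  have hzero : ∀ j, j ∉ J → ∏ i, ∑ x ∈ U, Y x ^ c j i = 0 := by
    intro j hj
    simp only [hJ, mem_filter, mem_univ, true_and, not_forall, not_not] at hj
    obtain ⟨i, hi⟩ := hj
    exact prod_eq_zero (mem_univ i) (by simp only [hi, pow_one, hmean])
  have hbd : ∀ j, ∏ i, ∑ x ∈ U, Y x ^ c j i ≤ (#U : ℝ) ^ m := by
    intro j
    refine (le_abs_self _).trans ?_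
    rw [abs_prod]
    calc _ ≤ ∏ _i : Fin m, (#U : ℝ) := by
          refine prod_le_prod (fun i _ => abs_nonneg _) fun i _ => ?_
          refine (abs_sum_le_sum_abs _ _).trans ?_
          rw [card_eq_sum_ones, Nat.cast_sum, Nat.cast_one]
          refine sum_le_sum fun x hx => ?_
          rw [abs_pow]
          exact pow_le_one₀ (abs_nonneg _) (hY x hx)
      _ = _ := by simp
  have hJsub : J ⊆ ((univ : Finset (Fin m)).powersetCard q).biUnion
      fun S => Fintype.piFinset fun _ : Fin (2 * q) => S := by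
    intro j hj
    simp only [hJ, mem_filter, mem_univ, true_and] at hj
    have himg : #(univ.image j) ≤ q := by
      have h1 : 2 * q = ∑ i ∈ univ.image j, c j i := by
        conv_lhs => rw [← Fintype.card_fin (2 * q), ← card_univ]
        exact card_eq_sum_card_image j univ
      have h2 : ∀ i ∈ univ.image j, 2 ≤ c j i := by
        intro i hi
        obtain ⟨k, -, rfl⟩ := mem_image.1 hi
        have : 0 < c j (j k) := card_pos.2 ⟨k, by simp⟩
        have := hj (j k)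
        omega
      have h3 := card_nsmul_le_sum _ _ _ h2
      rw [smul_eq_mul, ← h1] at h3
      omega
    obtain ⟨S, hS1, hS2⟩ := exists_superset_card_eq himg (by simpa using hqm)
    refine mem_biUnion.2 ⟨S, mem_powersetCard.2 ⟨subset_univ _, hS2⟩, Fintype.mem_piFinset.2 ?_⟩
    exact fun k => hS1 (mem_image_of_mem j (mem_univ k))
  have hJcard : (#J : ℝ) ≤ (Real.exp 1 * q * m) ^ q := by
    have h1 : #J ≤ m.choose q * q ^ (2 * q) := by
      refine (card_le_card hJsub).trans (card_biUnion_le.trans ?_)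
      rw [sum_congr rfl fun S hS => by
        rw [Fintype.card_piFinset_const, (mem_powersetCard.1 hS).2]]
      simp
    have h2 : (m.choose q : ℝ) ≤ (m : ℝ) ^ q / q.factorial := Nat.choose_le_pow_div q m
    have h3 : (q : ℝ) ^ q / q.factorial ≤ Real.exp q :=
      Real.pow_div_factorial_le_exp _ (by positivity) q
    calc (#J : ℝ) ≤ (m.choose q : ℝ) * (q : ℝ) ^ (2 * q) := by exact_mod_cast h1
      _ ≤ (m : ℝ) ^ q / q.factorial * (q : ℝ) ^ (2 * q) := by gcongr
      _ = (m : ℝ) ^ q * (q : ℝ) ^ q * ((q : ℝ) ^ q / q.factorial) := by rw [two_mul, pow_add]; ring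
      _ ≤ (m : ℝ) ^ q * (q : ℝ) ^ q * Real.exp q := by gcongr
      _ = _ := by rw [mul_pow, mul_pow, ← Real.exp_nat_mul, mul_one]; ring
  simp only [hterm]
  rw [← sum_subset (subset_univ J) fun j _ hj => hzero j hj]
  calc _ ≤ ∑ _j ∈ J, (#U : ℝ) ^ m := sum_le_sum fun j _ => hbd j
    _ = (#J : ℝ) * (#U : ℝ) ^ m := by rw [sum_const, nsmul_eq_mul]
    _ ≤ _ := by rw [mul_comm]; gcongr

variable {G : Type*} [AddCommGroup G] [DecidableEq G]

/-- Averaging of a function over the differences of `X`. -/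
noncomputable def shiftAvg (X : Finset G) (φ : G → ℝ) (z : G) : ℝ :=
  (∑ p ∈ X ×ˢ X, φ (z + (p.1 - p.2))) / (#X : ℝ) ^ 2

lemma iter_shiftAvg_mono (X : Finset G) {φ ψ : G → ℝ} (h : ∀ z, φ z ≤ ψ z) :
    ∀ (n : ℕ) (z : G), (shiftAvg X)^[n] φ z ≤ (shiftAvg X)^[n] ψ z
  | 0, z => h z
  | n + 1, z => by
      simp only [Function.iterate_succ', Function.comp_apply, shiftAvg]
      gcongr with p
      exact iter_shiftAvg_mono X h n _

lemma iter_shiftAvg_mul (X : Finset G) (a : ℝ) (φ : G → ℝ) :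
    ∀ (n : ℕ) (z : G), (shiftAvg X)^[n] (fun x => a * φ x) z = a * (shiftAvg X)^[n] φ z
  | 0, z => rfl
  | n + 1, z => by
      simp only [Function.iterate_succ', Function.comp_apply, shiftAvg,
        iter_shiftAvg_mul X a φ n, ← mul_sum, mul_div_assoc]

lemma iter_shiftAvg_sum {ι : Type*} (X : Finset G) (s : Finset ι) (φ : ι → G → ℝ) :
    ∀ (n : ℕ) (z : G), (shiftAvg X)^[n] (fun x => ∑ i ∈ s, φ i x) z =
      ∑ i ∈ s, (shiftAvg X)^[n] (φ i) z
  | 0, z => rfl
  | n + 1, z => by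
      simp only [Function.iterate_succ', Function.comp_apply, shiftAvg,
        iter_shiftAvg_sum X s φ n, ← sum_div]
      rw [sum_comm]

lemma iter_shiftAvg_comp_sub (X : Finset G) (v : G) (φ : G → ℝ) :
    ∀ (n : ℕ) (z : G), (shiftAvg X)^[n] (fun x => φ (x - v)) z = (shiftAvg X)^[n] φ (z - v)
  | 0, z => rfl
  | n + 1, z => by
      simp only [Function.iterate_succ', Function.comp_apply, shiftAvg,
        iter_shiftAvg_comp_sub X v φ n]
      congr 1
      refine sum_congr rfl fun p _ => ?_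
      rw [show z + (p.1 - p.2) - v = z - v + (p.1 - p.2) by abel]

/-- Almost-periods of `1_S * μ_U` on average over translates of `U`. -/
lemma exists_periods {U T' W Ω : Finset G} (S : Finset G) (hU : U.Nonempty) (hT' : T'.Nonempty)
    {q K : ℕ} (hq : 1 ≤ q) (hK : 1 ≤ K) {δ : ℝ} (hδ : 0 ≤ δ)
    (hUW : ∀ u ∈ U, ∀ t ∈ T', u + t ∈ W)
    (hΩ : 2 * (#Ω : ℝ) * (Real.exp 1 / K) ^ q ≤ #U * δ ^ (2 * q)) :
    ∃ X ⊆ T', X.Nonempty ∧ (#U : ℝ) ^ (q * K) * #T' ≤ 2 * (#W : ℝ) ^ (q * K) * #X ∧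
      ∀ t ∈ X, ∀ t' ∈ X, ∀ z, (∀ u ∈ U, u + z ∈ Ω) → (∀ u ∈ U, u + (z + (t - t')) ∈ Ω) →
        |∑ u ∈ U, ∑ v ∈ U, ind S (u + (z + (t - t')) - v) -
          ∑ u ∈ U, ∑ v ∈ U, ind S (u + z - v)| ≤ 2 * δ * (#U : ℝ) ^ 2 := by
  classical
  set m := q * K with hm
  have hUpos : (0 : ℝ) < #U := by exact_mod_cast hU.card_pos
  have hmpos : (0 : ℝ) < m := by
    have : 0 < m := Nat.mul_pos hq hK
    exact_mod_cast this
  set g : G → ℝ := fun x => (∑ v ∈ U, ind S (x - v)) / #U with hg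
  set Φ := Fintype.piFinset fun _ : Fin m => U with hΦ
  set err : (Fin m → G) → ℝ := fun v =>
    ∑ x ∈ Ω, ((∑ i, (ind S (x - v i) - g x)) / m) ^ (2 * q) with herr
  set B : ℝ := 2 * (#Ω : ℝ) * (Real.exp 1 / K) ^ q with hB
  set good := Φ.filter fun v => err v ≤ B with hgood
  have herr0 : ∀ v, 0 ≤ err v := fun v => sum_nonneg fun x _ => by
    rw [pow_mul]; positivity
  have hΦcard : (#Φ : ℝ) = (#U : ℝ) ^ m := by simp [hΦ]
  have htot : ∑ v ∈ Φ, err v ≤ (#U : ℝ) ^ m * ((#Ω : ℝ) * (Real.exp 1 / K) ^ q) := by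
    simp only [herr, div_pow]
    rw [sum_comm]
    have hx : ∀ x ∈ Ω, ∑ v ∈ Φ, (∑ i, (ind S (x - v i) - g x)) ^ (2 * q) / (m : ℝ) ^ (2 * q) ≤
        (#U : ℝ) ^ m * (Real.exp 1 / K) ^ q := by
      intro x _
      rw [← sum_div, div_le_iff₀ (by positivity)]
      have hg0 : 0 ≤ g x := div_nonneg (sum_nonneg fun v _ => ind_nonneg _ _) hUpos.le
      have hg1 : g x ≤ 1 := by
        rw [hg, div_le_one hUpos, card_eq_sum_ones, Nat.cast_sum, Nat.cast_one]
        exact sum_le_sum fun v _ => ind_le_one _ _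
      refine (sampling_moment (Y := fun v => ind S (x - v) - g x) (fun v _ => ?_) ?_
        (by rw [hm]; exact Nat.le_mul_of_pos_right q hK)).trans_eq ?_
      · rw [abs_le]
        constructor <;> linarith [ind_nonneg S (x - v), ind_le_one S (x - v)]
      · rw [sum_sub_distrib, sum_const, nsmul_eq_mul, hg, mul_div_cancel₀ _ hUpos.ne', sub_self]
      · rw [pow_mul (m : ℝ), mul_assoc ((#U : ℝ) ^ m), ← mul_pow]
        congr 2
        rw [hm, Nat.cast_mul]
        have : (K : ℝ) ≠ 0 := by positivity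
        field_simp
    calc _ ≤ ∑ _x ∈ Ω, (#U : ℝ) ^ m * (Real.exp 1 / K) ^ q := by
          simpa only [← div_pow] using sum_le_sum hx
      _ = _ := by rw [sum_const, nsmul_eq_mul]; simp only [div_pow]; ring
  have hhalf : (#U : ℝ) ^ m ≤ 2 * good.card := by
    rcases Ω.eq_empty_or_nonempty with he | hne
    · have : good = Φ := filter_true_of_mem fun v _ => by simp [herr, hB, he]
      rw [this, hΦcard]
      have : (0 : ℝ) ≤ (#U : ℝ) ^ m := by positivity
      linarith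
    have hBpos : 0 < B := by
      have : (0 : ℝ) < #Ω := by exact_mod_cast hne.card_pos
      have : (0 : ℝ) < K := by exact_mod_cast hK
      positivity
    have h1 : B * #(Φ.filter fun v => ¬ err v ≤ B) ≤ ∑ v ∈ Φ, err v := by
      calc _ = ∑ _v ∈ Φ.filter (fun v => ¬ err v ≤ B), B := by rw [sum_const, nsmul_eq_mul]; ring
        _ ≤ ∑ v ∈ Φ.filter (fun v => ¬ err v ≤ B), err v :=
            sum_le_sum fun v hv => (not_le.1 (mem_filter.1 hv).2).le
        _ ≤ _ := sum_le_sum_of_subset_of_nonneg (filter_subset _ _) fun v _ _ => herr0 v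
    have h2 : (good.card : ℝ) + #(Φ.filter fun v => ¬ err v ≤ B) = (#U : ℝ) ^ m := by
      rw [← hΦcard, ← Nat.cast_add, hgood, card_filter_add_card_filter_not]
    nlinarith
  set Pw := Fintype.piFinset fun _ : Fin m => W with hPw
  set f : (Fin m → G) × G → (Fin m → G) := fun p i => p.1 i + p.2 with hf
  have hmaps : ∀ p ∈ good ×ˢ T', f p ∈ Pw := fun p hp => by
    obtain ⟨h1, h2⟩ := mem_product.1 hp
    exact Fintype.mem_piFinset.2 fun i =>
      hUW _ (Fintype.mem_piFinset.1 (mem_filter.1 h1).1 i) _ h2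
  have hgne : good.Nonempty := by
    rw [← card_pos]
    have : (0 : ℝ) < (#U : ℝ) ^ m := by positivity
    exact_mod_cast (by linarith : (0 : ℝ) < good.card)
  have hPne : Pw.Nonempty := by
    obtain ⟨p, hp⟩ := hgne.product hT'
    exact ⟨_, hmaps p hp⟩
  obtain ⟨w, -, hw⟩ := exists_le_card_fiber_of_nsmul_le_card_of_maps_to hmaps hPne
    (b := ((good.card : ℝ) * #T') / #Pw) (by
      have : (0 : ℝ) < #Pw := by exact_mod_cast hPne.card_pos
      rw [card_product, nsmul_eq_mul, mul_div_cancel₀ _ this.ne', Nat.cast_mul])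
  set Fw := (good ×ˢ T').filter fun p => f p = w with hFw
  set X := Fw.image Prod.snd with hX
  have hXcard : #X = #Fw := card_image_of_injOn fun p hp p' hp' h => by
    have e1 := (mem_filter.1 hp).2
    have e2 := (mem_filter.1 hp').2
    refine Prod.ext (funext fun i => ?_) h
    have := congrFun (e1.trans e2.symm) i
    simp only [hf, h] at this
    exact add_right_cancel this
  have hWm : (0 : ℝ) < #Pw := by exact_mod_cast hPne.card_pos
  have hPwcard : (#Pw : ℝ) = (#W : ℝ) ^ m := by simp [hPw]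
  have hT0 : (0 : ℝ) < #T' := by exact_mod_cast hT'.card_pos
  have hsize : (#U : ℝ) ^ m * #T' ≤ 2 * (#W : ℝ) ^ m * #X := by
    rw [hXcard, ← hPwcard]
    rw [div_le_iff₀ hWm] at hw
    nlinarith
  refine ⟨X, ?_, ?_, hsize, ?_⟩
  · intro t ht
    obtain ⟨p, hp, rfl⟩ := mem_image.1 ht
    exact (mem_product.1 (mem_filter.1 hp).1).2
  · rw [← card_pos]
    have h1 : (0 : ℝ) < 2 * (#W : ℝ) ^ m * #X := lt_of_lt_of_le (by positivity) hsize
    have h2 : (0 : ℝ) < #X := pos_of_mul_pos_right h1 (by positivity)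
    exact_mod_cast h2
  set ψ : G → ℝ := fun y => (∑ i, ind S (y - w i)) / m with hψ
  have hone : ∀ t ∈ X, ∀ z, (∀ u ∈ U, u + z ∈ Ω) →
      |∑ u ∈ U, (ψ (u + z + t) - g (u + z))| ≤ δ * #U := by
    intro t ht z hz
    obtain ⟨⟨v, t₀⟩, hp, rfl⟩ := mem_image.1 ht
    obtain ⟨hp1, hp2⟩ := mem_filter.1 hp
    have hv := (mem_filter.1 (mem_product.1 hp1).1).2
    set d : G → ℝ := fun u => ψ (u + z + t₀) - g (u + z) with hd
    have hd' : ∀ u, d u = (∑ i, (ind S (u + z - v i) - g (u + z))) / m := fun u => by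
      have e : ∀ i, u + z + t₀ - w i = u + z - v i := fun i => by
        rw [← hp2]; simp only [hf]; abel
      simp only [hd, hψ, e, sum_sub_distrib, sum_const, card_univ, Fintype.card_fin, nsmul_eq_mul]
      field_simp
    have hsum : ∑ u ∈ U, d u ^ (2 * q) ≤ #U * δ ^ (2 * q) := by
      refine le_trans ?_ (hv.trans hΩ)
      simp only [hd', herr]
      rw [← sum_image (f := fun x => ((∑ i, (ind S (x - v i) - g x)) / m) ^ (2 * q))
        (g := fun u => u + z) (fun a _ b _ h => add_right_cancel h)]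
      refine sum_le_sum_of_subset_of_nonneg (fun x hx => ?_) fun x _ _ => by rw [pow_mul]; positivity
      obtain ⟨u, hu, rfl⟩ := mem_image.1 hx
      exact hz u hu
    obtain ⟨q', rfl⟩ : ∃ q', q = q' + 1 := ⟨q - 1, by omega⟩
    refine le_of_pow_le_pow_left₀ (n := 2 * (q' + 1)) (by omega) (by positivity) ?_
    calc |∑ u ∈ U, d u| ^ (2 * (q' + 1)) ≤ (∑ u ∈ U, |d u|) ^ (2 * (q' + 1)) := by
          gcongr; exact abs_sum_le_sum_abs _ _
      _ ≤ (#U : ℝ) ^ (2 * q' + 1) * ∑ u ∈ U, |d u| ^ (2 * q' + 1 + 1) := by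
          exact pow_sum_le_card_mul_sum_pow (fun u _ => abs_nonneg _) (2 * q' + 1)
      _ = (#U : ℝ) ^ (2 * q' + 1) * ∑ u ∈ U, d u ^ (2 * (q' + 1)) := by
          congr 1
          refine sum_congr rfl fun u _ => ?_
          rw [show 2 * q' + 1 + 1 = 2 * (q' + 1) by ring, pow_mul, sq_abs, ← pow_mul]
      _ ≤ (#U : ℝ) ^ (2 * q' + 1) * (#U * δ ^ (2 * (q' + 1))) := by gcongr
      _ = _ := by rw [mul_pow, show 2 * (q' + 1) = 2 * q' + 1 + 1 by ring, pow_succ (#U : ℝ)]; ring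
  intro t ht t' ht' z hz hz'
  have h1 := hone t ht z hz
  have h2 := hone t' ht' _ hz'
  have e : ∀ u : G, u + (z + (t - t')) + t' = u + z + t := fun u => by abel
  simp only [e, sum_sub_distrib] at h1 h2
  have h3 : |∑ u ∈ U, g (u + (z + (t - t'))) - ∑ u ∈ U, g (u + z)| ≤ 2 * δ * #U := by
    rw [abs_le] at h1 h2 ⊢
    constructor <;> linarith
  have hkey : ∀ y, ∑ u ∈ U, ∑ v ∈ U, ind S (u + y - v) = #U * ∑ u ∈ U, g (u + y) := fun y => by
    simp only [hg, ← sum_div]
    rw [mul_div_cancel₀ _ hUpos.ne']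
  rw [hkey, hkey, ← mul_sub, abs_mul, abs_of_pos hUpos]
  calc _ ≤ (#U : ℝ) * (2 * δ * #U) := by gcongr
    _ = _ := by ring

/-- Bootstrapping: `k` rounds of almost-periods. -/
lemma exists_bootstrap {U T' W Ω : Finset G} (S : Finset G) (hU : U.Nonempty) (hT' : T'.Nonempty)
    {q K k : ℕ} (hq : 1 ≤ q) (hK : 1 ≤ K) {δ : ℝ} (hδ : 0 ≤ δ)
    (hUW : ∀ u ∈ U, ∀ t ∈ T', u + t ∈ W)
    (hΩ : 2 * (#Ω : ℝ) * (Real.exp 1 / K) ^ q ≤ #U * δ ^ (2 * q))
    (Pr : ℕ → G → Prop) (h0 : Pr k 0) (hPU : ∀ i z, Pr i z → ∀ u ∈ U, u + z ∈ Ω)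
    (hstep : ∀ i z, Pr (i + 1) z → ∀ t ∈ T', ∀ t' ∈ T', Pr i (z + (t - t'))) :
    ∃ X ⊆ T', X.Nonempty ∧ (#U : ℝ) ^ (q * K) * #T' ≤ 2 * (#W : ℝ) ^ (q * K) * #X ∧
      av U (ind S) - 2 * k * δ ≤ av U ((shiftAvg X)^[k] (ind S)) := by
  obtain ⟨X, hXT, hXne, hsize, hper⟩ := exists_periods S hU hT' hq hK hδ hUW hΩ
  refine ⟨X, hXT, hXne, hsize, ?_⟩
  set J : ℕ → G → ℝ := fun n z => ∑ u ∈ U, ∑ v ∈ U, (shiftAvg X)^[n] (ind S) (u + z - v) with hJ
  have hXpos : (0 : ℝ) < #X := by exact_mod_cast hXne.card_pos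
  have key : ∀ n z, Pr n z → J 0 z - 2 * n * δ * (#U : ℝ) ^ 2 ≤ J n z := by
    intro n
    induction n with
    | zero => intro z _; simp
    | succ n ih =>
      intro z hz
      have e : J (n + 1) z = (∑ p ∈ X ×ˢ X, J n (z + (p.1 - p.2))) / (#X : ℝ) ^ 2 := by
        simp only [hJ, Function.iterate_succ', Function.comp_apply, shiftAvg, ← sum_div]
        congr 1
        rw [sum_comm_cycle]
        refine sum_congr rfl fun p _ => sum_congr rfl fun u _ => sum_congr rfl fun v _ => ?_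
        rw [show u + (z + (p.1 - p.2)) - v = u + z - v + (p.1 - p.2) by abel]
      have hb : ∀ p ∈ X ×ˢ X,
          J 0 z - 2 * (n + 1 : ℕ) * δ * (#U : ℝ) ^ 2 ≤ J n (z + (p.1 - p.2)) := by
        intro p hp
        obtain ⟨h1, h2⟩ := mem_product.1 hp
        have hz' := hstep n z hz _ (hXT h1) _ (hXT h2)
        have := ih _ hz'
        have h3 := abs_le.1 (hper _ h1 _ h2 z (hPU _ _ hz) (hPU _ _ hz'))
        simp only [hJ, Function.iterate_zero, id_eq] at this ⊢
        push_cast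
        linarith
      rw [e, le_div_iff₀ (by positivity)]
      calc _ = ∑ _p ∈ X ×ˢ X, (J 0 z - 2 * (n + 1 : ℕ) * δ * (#U : ℝ) ^ 2) := by
            rw [sum_const, card_product, nsmul_eq_mul]; push_cast; ring
        _ ≤ _ := sum_le_sum hb
  have h := key k 0 h0
  have hUpos : (0 : ℝ) < #U := by exact_mod_cast hU.card_pos
  simp only [hJ, add_zero, Function.iterate_zero, id_eq] at h
  rw [av_eq, av_eq, le_div_iff₀ (by positivity), sub_mul, div_mul_cancel₀ _ (by positivity)]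
  exact h

end Vale.Agent.P057.Sixth
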