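import Vale.Agent.P057.Sixth.Avg

/-!
# Hölder, positivity of autocorrelations and unbalancing
-/

namespace Vale.Agent.P057.Sixth

open Finset

set_option linter.unusedSectionVars false

variable {G : Type*} [AddCommGroup G] [DecidableEq G]

/-- The indicator of a finset as a real function. -/
def ind (S : Finset G) (x : G) : ℝ := if x ∈ S then 1 else 0

lemma ind_nonneg (S : Finset G) (x : G) : 0 ≤ ind S x := by unfold ind; split <;> norm_num

lemma ind_le_one (S : Finset G) (x : G) : ind S x ≤ 1 := by unfold ind; split <;> norm_num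

/-- The normalised autocorrelation of `A` relative to `B`. -/
noncomputable def autoH (A B : Finset G) (y : G) : ℝ :=
  (#B : ℝ) * #(A.filter fun x => x + y ∈ A) / (#A : ℝ) ^ 2

lemma autoH_nonneg (A B : Finset G) (y : G) : 0 ≤ autoH A B y := by unfold autoH; positivity

lemma autoH_le (A B : Finset G) (y : G) : autoH A B y ≤ (#B : ℝ) / #A := by
  rcases A.eq_empty_or_nonempty with rfl | hA
  · simp [autoH]
  · have h : (0 : ℝ) < #A := by exact_mod_cast hA.card_pos
    unfold autoH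
    calc _ ≤ (#B : ℝ) * #A / (#A : ℝ) ^ 2 := by gcongr; exact filter_subset _ _
      _ = _ := by field_simp

lemma card_filter_add_neg (A S : Finset G) (y : G) :
    #(A.filter fun x => x + y ∈ S) = #(S.filter fun x => x + -y ∈ A) := by
  refine card_nbij' (fun x => x + y) (fun x => x + -y) ?_ ?_ ?_ ?_ <;>
    intro x <;> simp +contextual [← sub_eq_add_neg]

lemma autoH_neg (A B : Finset G) (y : G) : autoH A B (-y) = autoH A B y := by
  unfold autoH; rw [card_filter_add_neg A A y]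

variable [Fintype G]

lemma sum_ind_mul_ind (S R : Finset G) (y : G) :
    ∑ x, ind S x * ind R (x + y) = #(S.filter fun x => x + y ∈ R) := by
  simp only [ind, ← ite_and, mul_ite, mul_one, mul_zero]
  rw [sum_boole]
  congr 2
  ext x
  simp [and_comm]

lemma sum_ind_mul_ind_sub (S R : Finset G) (y : G) :
    ∑ x, ind S x * ind R (y - x) = #(S.filter fun x => y - x ∈ R) := by
  simp only [ind, ← ite_and, mul_ite, mul_one, mul_zero]
  rw [sum_boole]
  congr 2
  ext x
  simp [and_comm]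

/-- `∑_x P(x)²`, the common value in the positivity identity. -/
noncomputable def Psq (T : Finset G) (g : G → ℝ) (p : ℕ) : ℝ :=
  ∑ x : Fin p → G, (∑ u ∈ T, ∏ i, g (u + x i)) ^ 2

lemma av_corr_pow (T : Finset G) (g : G → ℝ) (p : ℕ) :
    av T (fun y => (∑ x, g x * g (x + y)) ^ p) = Psq T g p / (#T : ℝ) ^ 2 := by
  rw [av_eq, Psq]
  congr 1
  have hsub : ∀ u v : G, ∑ x, g x * g (x + (u - v)) = ∑ x, g (u + x) * g (v + x) := by
    intro u v
    refine (Fintype.sum_equiv (Equiv.addLeft v) _ _ fun x => ?_).symm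
    simp only [Equiv.coe_addLeft]
    rw [show v + x + (u - v) = u + x by abel, mul_comm]
  simp only [hsub, Fintype.sum_pow, sq, sum_mul_sum, prod_mul_distrib]
  rw [sum_comm_cycle]

lemma av_conv_pow_le (T : Finset G) (hT : ∀ u ∈ T, -u ∈ T) (g : G → ℝ) (p : ℕ) :
    av T (fun y => (∑ x, g x * g (y - x)) ^ p) ≤ Psq T g p / (#T : ℝ) ^ 2 := by
  rw [av_eq, Psq]
  gcongr
  have hsub : ∀ u v : G, ∑ x, g x * g (u - v - x) = ∑ x, g (u + x) * g (-(v + x)) := by
    intro u v
    refine (Fintype.sum_equiv (Equiv.addLeft u) _ _ fun x => ?_).symm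
    simp only [Equiv.coe_addLeft]
    rw [show u - v - (u + x) = -(v + x) by abel]
  simp only [hsub, Fintype.sum_pow, prod_mul_distrib]
  rw [sum_comm_cycle]
  simp only [← mul_sum, ← sum_mul]
  set P := fun x : Fin p → G => ∑ u ∈ T, ∏ i, g (u + x i) with hP
  have hQ : ∀ x : Fin p → G, ∑ v ∈ T, ∏ i, g (-(v + x i)) = P (-x) := fun x => by
    refine sum_nbij' (fun v => -v) (fun v => -v) hT hT (by simp) (by simp) fun v _ => ?_
    simp [neg_add_rev, add_comm]
  simp only [hQ]
  have hneg : ∑ x : Fin p → G, P (-x) ^ 2 = ∑ x, P x ^ 2 :=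
    Fintype.sum_equiv (Equiv.neg _) _ _ fun x => rfl
  have hcs := sum_mul_sq_le_sq_mul_sq univ P fun x => P (-x)
  rw [hneg, ← sq] at hcs
  exact le_trans (le_abs_self _)
    (abs_le_of_sq_le_sq hcs (sum_nonneg fun x _ => sq_nonneg _))

/-- Unbalancing: large even moments and nonnegative odd moments of `h` give large moments of
`H ≥ h + 1`. -/
lemma exists_moment_of_unbalance {T : Finset G} (hT : T.Nonempty) {h H : G → ℝ} {p : ℕ}
    (hp : Even p) (hp2 : 2 ≤ p) (hH : ∀ y, 0 ≤ H y)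
    (hhH : ∀ u ∈ T, ∀ v ∈ T, h (u - v) + 1 ≤ H (u - v))
    (hbig : (0.99 : ℝ) ^ p ≤ av T (fun y => h y ^ p))
    (hodd : 0 ≤ av T (fun y => h y ^ (p + 1))) :
    ∃ q, 1 ≤ q ∧ q ≤ 6 * p + 112 ∧ (1.2 : ℝ) ^ q ≤ av T (fun y => H y ^ q) := by
  classical
  set P : G → ℝ := fun y => if (0.3 : ℝ) ≤ h y then 1 else 0 with hPdef
  set A := av T (fun y => h y ^ (p + 1) * P y) with hA
  have hA' : (0.99 : ℝ) ^ p / 16 ≤ A := by
    have h1 : ∀ y, 0.5 * h y ^ p ≤ h y ^ p * |h y| + 0.5 ^ (p + 1) := by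
      intro y
      rcases le_total (0.5 : ℝ) |h y| with h' | h'
      · have := mul_le_mul_of_nonneg_left h' (hp.pow_nonneg (h y))
        have : (0 : ℝ) ≤ 0.5 ^ (p + 1) := by positivity
        linarith
      · have h2 := pow_le_pow_left₀ (abs_nonneg _) h' p
        rw [hp.pow_abs] at h2
        rw [pow_succ]
        nlinarith [mul_nonneg (hp.pow_nonneg (h y)) (abs_nonneg (h y))]
    have h2 : ∀ y, h y ^ p * |h y| + h y ^ (p + 1) ≤
        2 * (h y ^ (p + 1) * P y) + 2 * 0.3 ^ (p + 1) := by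
      intro y
      have h0 : (0 : ℝ) ≤ 0.3 ^ (p + 1) := by positivity
      by_cases hy : (0.3 : ℝ) ≤ h y
      · simp only [hPdef, if_pos hy, abs_of_nonneg (le_trans (by norm_num) hy), pow_succ] at h0 ⊢
        linarith
      · simp only [hPdef, if_neg hy, mul_zero, zero_add]
        rcases le_total 0 (h y) with h' | h'
        · have := pow_le_pow_left₀ h' (le_of_not_ge hy) (p + 1)
          rw [abs_of_nonneg h', ← pow_succ]
          linarith
        · rw [abs_of_nonpos h', pow_succ]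
          linarith
    have e1 := av_mono (T := T) (φ := fun y => 0.5 * h y ^ p)
      (ψ := fun y => h y ^ p * |h y| + 0.5 ^ (p + 1)) fun u _ v _ => h1 _
    rw [av_mul_left, av_add, av_const hT] at e1
    have e2 := av_mono (T := T) (φ := fun y => h y ^ p * |h y| + h y ^ (p + 1))
      (ψ := fun y => 2 * (h y ^ (p + 1) * P y) + 2 * 0.3 ^ (p + 1)) fun u _ v _ => h2 _
    rw [av_add, av_add, av_mul_left, av_const hT, ← hA] at e2
    have e3 : (0.5 : ℝ) ^ p ≤ 0.26 * 0.99 ^ p := by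
      obtain ⟨k, rfl⟩ : ∃ k, p = k + 2 := ⟨p - 2, by omega⟩
      have := pow_le_pow_left₀ (by norm_num) (show (0.5 : ℝ) ≤ 0.99 by norm_num) k
      have : (0 : ℝ) ≤ 0.99 ^ k := by positivity
      rw [pow_add, pow_add]
      nlinarith
    have e4 : (0.3 : ℝ) ^ p ≤ 0.1 * 0.99 ^ p := by
      obtain ⟨k, rfl⟩ : ∃ k, p = k + 2 := ⟨p - 2, by omega⟩
      have := pow_le_pow_left₀ (by norm_num) (show (0.3 : ℝ) ≤ 0.99 by norm_num) k
      have : (0 : ℝ) ≤ 0.99 ^ k := by positivity
      rw [pow_add, pow_add]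
      nlinarith
    have e5 : (0 : ℝ) ≤ 0.99 ^ p := by positivity
    rw [pow_succ (0.5 : ℝ) p] at e1
    rw [pow_succ (0.3 : ℝ) p] at e2
    linarith
  have hcs : A ^ 2 ≤ av T (fun y => H y ^ (2 * p + 2)) * av T P := by
    have hc := av_cauchy T (fun y => h y ^ (p + 1) * P y) P
    have e1 : (fun y => h y ^ (p + 1) * P y * P y) = fun y => h y ^ (p + 1) * P y := by
      funext y; simp only [hPdef]; split_ifs <;> simp
    have e2 : (fun y => P y ^ 2) = P := by funext y; simp [hPdef]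
    rw [e1, e2] at hc
    refine hc.trans (mul_le_mul_of_nonneg_right (av_mono fun u hu v hv => ?_)
      (av_nonneg fun y => by simp only [hPdef]; split <;> norm_num))
    by_cases hy : (0.3 : ℝ) ≤ h (u - v)
    · simp only [hPdef, if_pos hy, mul_one]
      rw [← pow_mul, show (p + 1) * 2 = 2 * p + 2 by ring]
      exact pow_le_pow_left₀ (le_trans (by norm_num) hy) (by linarith [hhH u hu v hv]) _
    · simp only [hPdef, if_neg hy, mul_zero]
      simpa using pow_nonneg (hH _) _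
  rcases le_total ((1.2 : ℝ) ^ (2 * p + 2)) (av T fun y => H y ^ (2 * p + 2)) with hc | hc
  · exact ⟨2 * p + 2, by omega, by omega, hc⟩
  refine ⟨6 * p + 112, by omega, le_rfl, ?_⟩
  have hP0 : 0 ≤ av T P := av_nonneg fun y => by simp only [hPdef]; split <;> norm_num
  have hH13 : (1.3 : ℝ) ^ (6 * p + 112) * av T P ≤ av T (fun y => H y ^ (6 * p + 112)) := by
    rw [← av_mul_left]
    refine av_mono fun u hu v hv => ?_
    by_cases hy : (0.3 : ℝ) ≤ h (u - v)
    · simp only [hPdef, if_pos hy, mul_one]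
      exact pow_le_pow_left₀ (by norm_num) (by linarith [hhH u hu v hv]) _
    · simp only [hPdef, if_neg hy, mul_zero]
      exact pow_nonneg (hH _) _
  have hsq : ((0.99 : ℝ) ^ p / 16) ^ 2 ≤ (1.2 : ℝ) ^ (2 * p + 2) * av T P :=
    (pow_le_pow_left₀ (by positivity) hA' 2).trans
      (hcs.trans (mul_le_mul_of_nonneg_right hc hP0))
  have key : (1.2 : ℝ) ^ (6 * p + 112) * 1.2 ^ (2 * p + 2) ≤
      1.3 ^ (6 * p + 112) * ((0.99 : ℝ) ^ p / 16) ^ 2 := by
    have a1 : ((1.2 : ℝ) ^ 8) ^ p ≤ (1.3 ^ 6 * 0.99 ^ 2) ^ p :=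
      pow_le_pow_left₀ (by positivity) (by norm_num) p
    have a2 : (1.2 : ℝ) ^ 114 ≤ 1.3 ^ 112 / 256 := by norm_num
    calc _ = ((1.2 : ℝ) ^ 8) ^ p * 1.2 ^ 114 := by rw [← pow_mul, ← pow_add, ← pow_add]; ring_nf
      _ ≤ (1.3 ^ 6 * 0.99 ^ 2) ^ p * (1.3 ^ 112 / 256) :=
          mul_le_mul a1 a2 (by positivity) (by positivity)
      _ = _ := by
          rw [mul_pow, ← pow_mul, ← pow_mul, pow_add, div_pow, ← pow_mul, mul_comm p 2]
          ring
  refine le_of_mul_le_mul_right ?_ (show (0 : ℝ) < 1.2 ^ (2 * p + 2) by positivity)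
  calc _ ≤ 1.3 ^ (6 * p + 112) * ((0.99 : ℝ) ^ p / 16) ^ 2 := key
    _ ≤ 1.3 ^ (6 * p + 112) * (1.2 ^ (2 * p + 2) * av T P) := by gcongr
    _ = (1.3 ^ (6 * p + 112) * av T P) * 1.2 ^ (2 * p + 2) := by ring
    _ ≤ _ := by gcongr

/-- A set with few solutions of `x + x' = y` on a set `C` of large weight has a large
autocorrelation moment. -/
lemma exists_autoH_moment {A B T C : Finset G} (hA : A.Nonempty) (hAB : A ⊆ B)
    (hB : ∀ x ∈ B, -x ∈ B) (hTne : T.Nonempty) (hT : ∀ u ∈ T, -u ∈ T)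
    (hAT : ∀ a ∈ A, ∀ u ∈ T, ∀ v ∈ T, a + (u - v) ∈ B)
    (hsize : (#B : ℝ) ≤ 0.001 * (#A : ℝ) ^ 2)
    {p : ℕ} (hp : Even p) (hp2 : 2 ≤ p)
    (hC : ((0.99 : ℝ) / 0.999) ^ p ≤ av T (ind C))
    (hfew : ∀ y ∈ C, #(A.filter fun a => y - a ∈ A) ≤ 1) :
    ∃ q, 1 ≤ q ∧ q ≤ 6 * p + 112 ∧ (1.2 : ℝ) ^ q ≤ av T (fun y => autoH A B y ^ q) := by
  have hApos : (0 : ℝ) < #A := by exact_mod_cast hA.card_pos
  have hBpos : (0 : ℝ) < #B := by exact_mod_cast (hA.mono hAB).card_pos
  set w : ℝ := #B / #A with hw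
  set g : G → ℝ := fun x => w * ind A x - ind B x with hg
  set h : G → ℝ := fun y => (∑ x, g x * g (x + y)) / #B with hh
  set f : G → ℝ := fun y => (∑ x, g x * g (y - x)) / #B with hf
  have hAy : ∀ u ∈ T, ∀ v ∈ T, (A.filter fun a => a + (u - v) ∈ B) = A := fun u hu v hv =>
    filter_true_of_mem fun a ha => hAT a ha u hu v hv
  have hAy' : ∀ u ∈ T, ∀ v ∈ T, (A.filter fun a => u - v - a ∈ B) = A := fun u hu v hv =>
    filter_true_of_mem fun a ha => by
      have := hB _ (hAT a ha v hv u hu)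
      rwa [show -(a + (v - u)) = u - v - a by abel] at this
  have hBA : ∀ u ∈ T, ∀ v ∈ T, #(B.filter fun b => b + (u - v) ∈ A) = #A := fun u hu v hv => by
    rw [card_filter_add_neg, show -(u - v) = v - u by abel, hAy v hv u hu]
  have hBA' : ∀ u ∈ T, ∀ v ∈ T, #(B.filter fun b => u - v - b ∈ A) = #A := fun u hu v hv => by
    conv_rhs => rw [← hAy' u hu v hv]
    refine card_nbij' (fun x => u - v - x) (fun x => u - v - x) ?_ ?_ ?_ ?_ <;>
      intro x <;> simp +contextual
  have hhval : ∀ u ∈ T, ∀ v ∈ T,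
      h (u - v) = autoH A B (u - v) - 2 + #(B.filter fun x => x + (u - v) ∈ B) / (#B : ℝ) := by
    intro u hu v hv
    have e : ∀ x y : G, g x * g y = w ^ 2 * (ind A x * ind A y) - w * (ind A x * ind B y)
        - w * (ind B x * ind A y) + ind B x * ind B y := fun x y => by simp only [hg]; ring
    simp only [hh, e, sum_add_distrib, sum_sub_distrib, ← mul_sum, sum_ind_mul_ind, hAy u hu v hv,
      hBA u hu v hv, autoH, hw]
    field_simp
    ring
  have hfval : ∀ u ∈ T, ∀ v ∈ T,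
      f (u - v) = w ^ 2 * #(A.filter fun a => u - v - a ∈ A) / #B - 2
        + #(B.filter fun x => u - v - x ∈ B) / (#B : ℝ) := by
    intro u hu v hv
    have e : ∀ x y : G, g x * g y = w ^ 2 * (ind A x * ind A y) - w * (ind A x * ind B y)
        - w * (ind B x * ind A y) + ind B x * ind B y := fun x y => by simp only [hg]; ring
    simp only [hf, e, sum_add_distrib, sum_sub_distrib, ← mul_sum, sum_ind_mul_ind_sub,
      hAy' u hu v hv, hBA' u hu v hv, hw]
    field_simp
    ring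
  have hfrac : ∀ P : G → Prop, ∀ [DecidablePred P], (#(B.filter P) : ℝ) / #B ≤ 1 := fun P _ => by
    rw [div_le_one hBpos]; exact_mod_cast card_filter_le _ _
  have hfC : ∀ u ∈ T, ∀ v ∈ T, (0.999 : ℝ) ^ p * ind C (u - v) ≤ f (u - v) ^ p := by
    intro u hu v hv
    by_cases hy : u - v ∈ C
    · have hF : w ^ 2 * #(A.filter fun a => u - v - a ∈ A) / #B ≤ 0.001 := by
        calc _ ≤ w ^ 2 * 1 / #B := by gcongr; exact_mod_cast hfew _ hy
          _ ≤ _ := by
            rw [hw, mul_one, div_pow, div_div, div_le_iff₀ (by positivity)]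
            nlinarith
      have hle : (0.999 : ℝ) ≤ -f (u - v) := by
        rw [hfval u hu v hv]
        linarith [hfrac fun x => u - v - x ∈ B]
      simp only [ind, if_pos hy, mul_one]
      calc _ ≤ (-f (u - v)) ^ p := pow_le_pow_left₀ (by norm_num) hle p
        _ = _ := hp.neg_pow _
    · simp only [ind, if_neg hy, mul_zero]
      exact hp.pow_nonneg _
  have hpow : ∀ n, av T (fun y => h y ^ n) = Psq T g n / (#T : ℝ) ^ 2 / (#B : ℝ) ^ n := fun n => by
    simp only [hh, div_pow, ← av_corr_pow]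
    rw [show (fun y => (∑ x, g x * g (x + y)) ^ n / (#B : ℝ) ^ n) =
      fun y => ((#B : ℝ) ^ n)⁻¹ * (∑ x, g x * g (x + y)) ^ n by funext y; ring, av_mul_left]
    ring
  refine exists_moment_of_unbalance hTne hp hp2 (autoH_nonneg A B) (fun u hu v hv => ?_) ?_ ?_ (h := h)
  · rw [hhval u hu v hv]
    linarith [hfrac fun x => x + (u - v) ∈ B]
  · have h1 := av_mono (T := T) (φ := fun y => (0.999 : ℝ) ^ p * ind C y) (ψ := fun y => f y ^ p) hfC
    rw [av_mul_left] at h1
    have h2 : av T (fun y => f y ^ p) ≤ av T (fun y => h y ^ p) := by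
      rw [hpow]
      simp only [hf, div_pow]
      rw [show (fun y => (∑ x, g x * g (y - x)) ^ p / (#B : ℝ) ^ p) =
        fun y => ((#B : ℝ) ^ p)⁻¹ * (∑ x, g x * g (y - x)) ^ p by funext y; ring, av_mul_left]
      calc _ ≤ ((#B : ℝ) ^ p)⁻¹ * (Psq T g p / (#T : ℝ) ^ 2) := by
            gcongr; exact av_conv_pow_le T hT g p
        _ = _ := by ring
    refine le_trans ?_ (h1.trans h2)
    calc (0.99 : ℝ) ^ p = 0.999 ^ p * (0.99 / 0.999) ^ p := by
          rw [← mul_pow, mul_div_cancel₀ _ (by norm_num : (0.999 : ℝ) ≠ 0)]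
      _ ≤ _ := by gcongr
  · rw [hpow]
    exact div_nonneg (div_nonneg (sum_nonneg fun x _ => sq_nonneg _) (by positivity))
      (pow_nonneg hBpos.le _)

end Vale.Agent.P057.Sixth
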