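import Vale.Agent.P057.Sixth.Positivity

/-!
# Sifting inside a set

A moment of the autocorrelation produces one set `U` whose difference weight concentrates where the
autocorrelation is large, with control of the average autocorrelation over the differences.
-/

namespace Vale.Agent.P057.Sixth

open Finset

set_option linter.unusedSectionVars false

variable {G : Type*} [AddCommGroup G] [DecidableEq G] [Fintype G]

lemma sum_ind_add (A : Finset G) (u : G) : ∑ x, ind A (u + x) = #A := by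
  rw [Fintype.sum_equiv (Equiv.addLeft u) (fun x => ind A (u + x)) (ind A) fun x => rfl]
  simp [ind]

lemma sum_ind_pair (A : Finset G) (u v : G) :
    ∑ x, ind A (u + x) * ind A (v + x) = #(A.filter fun x => x + (u - v) ∈ A) := by
  rw [← sum_ind_mul_ind]
  refine Fintype.sum_equiv (Equiv.addLeft v) _ _ fun x => ?_
  simp only [Equiv.coe_addLeft]
  rw [show v + x + (u - v) = u + x by abel, mul_comm]

/-- The sifted set attached to a tuple of shifts. -/
def sift (A T : Finset G) {p : ℕ} (s : Fin p → G) : Finset G :=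
  T.filter fun u => ∀ i, u + s i ∈ A

lemma prod_ind_eq {A : Finset G} {p : ℕ} (s : Fin p → G) (u : G) :
    ∏ i, ind A (u + s i) = if ∀ i, u + s i ∈ A then (1 : ℝ) else 0 := by
  simp only [ind, Finset.prod_boole, mem_univ, true_implies]

lemma sum_sift_card (A T : Finset G) (p : ℕ) :
    ∑ s : Fin p → G, (#(sift A T s) : ℝ) = #T * (#A : ℝ) ^ p := by
  have h : ∀ s : Fin p → G, (#(sift A T s) : ℝ) = ∑ u ∈ T, ∏ i, ind A (u + s i) := fun s => by
    simp only [prod_ind_eq, sift, sum_boole]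
  simp only [h]
  rw [sum_comm]
  have h2 : ∀ u ∈ T, ∑ s : Fin p → G, ∏ i, ind A (u + s i) = (#A : ℝ) ^ p := fun u _ => by
    rw [← Fintype.sum_pow (fun x => ind A (u + x)), sum_ind_add]
  rw [sum_congr rfl h2, sum_const, nsmul_eq_mul]

lemma sum_sift_pairs (A T : Finset G) (p : ℕ) (φ : G → ℝ) :
    ∑ s : Fin p → G, ∑ u ∈ sift A T s, ∑ v ∈ sift A T s, φ (u - v) =
      ∑ u ∈ T, ∑ v ∈ T, φ (u - v) * (#(A.filter fun x => x + (u - v) ∈ A) : ℝ) ^ p := by
  have h : ∀ s : Fin p → G, ∑ u ∈ sift A T s, ∑ v ∈ sift A T s, φ (u - v) =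
      ∑ u ∈ T, ∑ v ∈ T, φ (u - v) * ((∏ i, ind A (u + s i)) * ∏ i, ind A (v + s i)) := fun s => by
    simp only [sift, sum_filter, prod_ind_eq]
    refine sum_congr rfl fun u _ => ?_
    split_ifs with hu <;> simp [hu]
  simp only [h, ← prod_mul_distrib]
  rw [sum_comm]
  refine sum_congr rfl fun u _ => ?_
  rw [sum_comm]
  refine sum_congr rfl fun v _ => ?_
  rw [← mul_sum, ← Fintype.sum_pow (fun x => ind A (u + x) * ind A (v + x)), sum_ind_pair]

lemma exists_sift {A B T : Finset G} (hA : A.Nonempty) (hAB : A ⊆ B) (hT : T.Nonempty) {p : ℕ}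
    {θ rp : ℝ} (hrp0 : 0 ≤ rp) (hMp : 1 ≤ av T (fun y => autoH A B y ^ p))
    (hr : av T (fun y => autoH A B y ^ (p + 1)) ≤ rp * av T (fun y => autoH A B y ^ p))
    (hlow : av T (fun y => (if autoH A B y ≤ θ then 1 else 0) * autoH A B y ^ p) ≤
      0.003 * av T (fun y => autoH A B y ^ p)) :
    ∃ U ⊆ T, U.Nonempty ∧ 0.01 * ((#A : ℝ) / #B) ^ p * #T ≤ #U ∧
      av U (fun y => if autoH A B y ≤ θ then 1 else 0) ≤ 0.02 ∧
      av U (autoH A B) ≤ 10 * rp := by
  classical
  set H := autoH A B with hH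
  set Mp := av T (fun y => H y ^ p) with hMdef
  have hApos : (0 : ℝ) < #A := by exact_mod_cast hA.card_pos
  have hBpos : (0 : ℝ) < #B := by exact_mod_cast (hA.mono hAB).card_pos
  have hTpos : (0 : ℝ) < #T := by exact_mod_cast hT.card_pos
  set K : ℝ := (#A : ℝ) ^ 2 / #B with hK
  have hKpos : 0 < K := by positivity
  have hcnt : ∀ y : G, (#(A.filter fun x => x + y ∈ A) : ℝ) = K * H y := fun y => by
    simp only [hH, autoH, hK]; field_simp
  have hsum : ∀ φ : G → ℝ,
      ∑ s : Fin p → G, ∑ u ∈ sift A T s, ∑ v ∈ sift A T s, φ (u - v) =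
        (#T : ℝ) ^ 2 * K ^ p * av T (fun y => φ y * H y ^ p) := fun φ => by
    rw [sum_sift_pairs, av_eq, mul_div_assoc', eq_div_iff (by positivity)]
    simp only [hcnt, mul_pow, sum_mul, mul_sum]
    exact sum_congr rfl fun u _ => sum_congr rfl fun v _ => by ring
  set β : ℝ := 0.01 * ((#A : ℝ) / #B) ^ p with hβ
  by_contra hcon
  push Not at hcon
  have hbad : ∀ s : Fin p → G, (#(sift A T s) : ℝ) ^ 2 ≤ β * #T * #(sift A T s) +
      50 * (∑ u ∈ sift A T s, ∑ v ∈ sift A T s, (if H (u - v) ≤ θ then (1 : ℝ) else 0)) +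
      (10 * rp)⁻¹ * (∑ u ∈ sift A T s, ∑ v ∈ sift A T s, H (u - v)) := by
    intro s
    set U := sift A T s with hU
    have h1 : 0 ≤ ∑ u ∈ U, ∑ v ∈ U, (if H (u - v) ≤ θ then (1 : ℝ) else 0) :=
      sum_nonneg fun u _ => sum_nonneg fun v _ => by split <;> norm_num
    have h2 : 0 ≤ ∑ u ∈ U, ∑ v ∈ U, H (u - v) :=
      sum_nonneg fun u _ => sum_nonneg fun v _ => autoH_nonneg _ _ _
    have h3 : 0 ≤ (10 * rp)⁻¹ := by positivity
    have h4 : 0 ≤ β * #T * #U := by positivity
    rcases U.eq_empty_or_nonempty with he | hne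
    · simp [he]
    have hUpos : (0 : ℝ) < #U := by exact_mod_cast hne.card_pos
    by_cases hb : β * #T ≤ #U
    · have hsub : U ⊆ T := filter_subset _ _
      by_cases hq : av U (fun y => if H y ≤ θ then (1 : ℝ) else 0) ≤ 0.02
      · have := hcon U hsub hne hb hq
        rw [av_eq, lt_div_iff₀ (by positivity)] at this
        rcases hrp0.lt_or_eq with hrp | hrp
        · have h5 : (10 * rp)⁻¹ * (10 * rp * (#U : ℝ) ^ 2) ≤
              (10 * rp)⁻¹ * (∑ u ∈ U, ∑ v ∈ U, H (u - v)) := by gcongr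
          rw [← mul_assoc, inv_mul_cancel₀ (by positivity), one_mul] at h5
          linarith
        · exfalso
          have h6 : av T (fun y => H y ^ (p + 1)) ≤ 0 := by rw [← hrp, zero_mul] at hr; exact hr
          have hz := av_moment_convex T (autoH_nonneg A B) p
          have h7 : 0 ≤ av T (fun y => H y ^ (p + 1)) := av_nonneg fun y => pow_nonneg (autoH_nonneg _ _ _) _
          have hz2 : ∀ q ∈ T ×ˢ T, H (q.1 - q.2) ^ (p + 1) = 0 := by
            refine (sum_eq_zero_iff_of_nonneg fun q _ => pow_nonneg (autoH_nonneg _ _ _) _).1 ?_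
            have := le_antisymm h6 h7
            rwa [av, div_eq_zero_iff, or_iff_left (by positivity)] at this
          rw [← hrp, mul_zero, zero_mul] at this
          refine this.ne' (sum_eq_zero fun u hu => sum_eq_zero fun v hv => ?_)
          exact (pow_eq_zero_iff (Nat.succ_ne_zero p)).1
            (hz2 (u, v) (mem_product.2 ⟨hsub hu, hsub hv⟩))
      · rw [not_le, av_eq, lt_div_iff₀ (by positivity)] at hq
        have := mul_nonneg h3 h2
        linarith
    · have := mul_le_mul_of_nonneg_right (le_of_not_ge hb) hUpos.le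
      have := mul_nonneg h3 h2
      nlinarith
  have htot := sum_le_sum fun s (_ : s ∈ (univ : Finset (Fin p → G))) => hbad s
  rw [sum_add_distrib, sum_add_distrib, ← mul_sum, ← mul_sum, ← mul_sum, sum_sift_card,
    hsum (fun y => if H y ≤ θ then (1 : ℝ) else 0), hsum H] at htot
  have hZ : ∑ s : Fin p → G, (#(sift A T s) : ℝ) ^ 2 = (#T : ℝ) ^ 2 * K ^ p * Mp := by
    have := hsum fun _ => 1
    simp only [one_mul, sum_const, nsmul_eq_mul, mul_one] at this
    simpa only [sq] using this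
  rw [hZ] at htot
  have e1 : β * #T * ((#T : ℝ) * (#A : ℝ) ^ p) = 0.01 * ((#T : ℝ) ^ 2 * K ^ p) := by
    have e0 : ((#A : ℝ) / #B) ^ p * (#A : ℝ) ^ p = K ^ p := by
      rw [← mul_pow, hK, div_mul_eq_mul_div, ← sq]
    calc _ = 0.01 * ((#T : ℝ) ^ 2 * (((#A : ℝ) / #B) ^ p * (#A : ℝ) ^ p)) := by rw [hβ]; ring
      _ = _ := by rw [e0]
  have hZpos : 0 < (#T : ℝ) ^ 2 * K ^ p := by positivity
  have e2 : av T (fun y => H y * H y ^ p) ≤ rp * Mp := by
    simpa only [← pow_succ'] using hr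
  rcases hrp0.lt_or_eq with hrp | hrp
  · have e3 : (10 * rp)⁻¹ * ((#T : ℝ) ^ 2 * K ^ p * av T (fun y => H y * H y ^ p)) ≤
        (10 * rp)⁻¹ * ((#T : ℝ) ^ 2 * K ^ p * (rp * Mp)) := by gcongr
    rw [show (10 * rp)⁻¹ * ((#T : ℝ) ^ 2 * K ^ p * (rp * Mp)) =
      0.1 * ((#T : ℝ) ^ 2 * K ^ p * Mp) by field_simp; ring] at e3
    rw [e1] at htot
    nlinarith [mul_le_mul_of_nonneg_left hlow hZpos.le, mul_le_mul_of_nonneg_left hMp hZpos.le]
  · rw [← hrp, mul_zero, inv_zero, zero_mul, add_zero, e1] at htot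
    nlinarith [mul_le_mul_of_nonneg_left hlow hZpos.le, mul_le_mul_of_nonneg_left hMp hZpos.le]

end Vale.Agent.P057.Sixth
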